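import Vale.Agent.P042.H678.NOTest

/-! Block [B]: near-orthogonality and testing with an individual constant for every coordinate. -/

set_option autoImplicit false

namespace Vale.Agent.P042.H678

open Finset
open Vale.Agent.P042.H461 Vale.Agent.P042.H416 Vale.Agent.P042.H742
open Vale.Agent.P042.H779 (marg marg_nonneg marg_congr marg_update marg_anti IsProb)

set_option linter.unusedSectionVars false

variable {ι : Type*} [Fintype ι] [DecidableEq ι] {V : ι → Type*} [∀ i, Fintype (V i)]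
  [∀ i, DecidableEq (V i)]

/-- The densities with respect to the reference are at most `∏ M i`. -/
def I1M (lam : ∀ i, V i → ℝ) (M : ι → ℝ) (D0 : ℕ) (P : (∀ i, V i) → ℝ) : Prop :=
  ∀ A : Finset ι, A.card ≤ D0 → ∀ x, marg P A x ≤ (∏ i ∈ A, M i) * lw lam A x

/-- Near-orthogonality with individual constants. -/
def NearOrthM (lam : ∀ i, V i → ℝ) (t M : ι → ℝ) (D0 : ℕ) (P : (∀ i, V i) → ℝ) : Prop :=
  ∀ (d : ℕ) (W : Finset ι) (w : ∀ i, V i) (T : Finset ι → (∀ i, V i) → ℝ), W.card + d ≤ D0 →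
    IsFam P W d T →
    pint P W w (fun x => (∑ D, T D x) ^ 2) ≤
      (∏ i ∈ W, M i) * lw lam W w * ((d.factorial : ℝ) * nrm lam (fun i => t i / M i) T)

variable {P : (∀ i, V i) → ℝ} {lam : ∀ i, V i → ℝ} {T : Finset ι → (∀ i, V i) → ℝ} {d : ℕ}

lemma I1M.toI1 {M : ι → ℝ} {D0 : ℕ} {L : ℝ} (hR : Ref lam L) (hI : I1M lam M D0 P)
    (hM : ∀ i, 1 ≤ M i) : I1 lam (∏ i, M i) D0 P := by
  intro A hA x
  refine (hI A hA x).trans (mul_le_mul_of_nonneg_right ?_ (lw_nonneg hR A x))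
  rw [← prod_const]
  refine prod_le_prod (fun i _ => by linarith [hM i]) fun i _ => ?_
  have h1 : M i = ∏ j ∈ ({i} : Finset ι), M j := by rw [prod_singleton]
  rw [h1]
  exact prod_le_prod_of_subset_of_one_le (subset_univ _)
    (fun j _ => by linarith [hM j]) fun j _ _ => hM j

lemma one_le_prodM {M : ι → ℝ} (hM : ∀ i, 1 ≤ M i) (A : Finset ι) : 1 ≤ ∏ i ∈ A, M i :=
  Finset.one_le_prod fun i _ => hM i

/-- The conclusion in degree `d`. -/
def ConcM (lam : ∀ i, V i → ℝ) (t M : ι → ℝ) (D0 : ℕ) (P : (∀ i, V i) → ℝ) (d : ℕ) : Prop :=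
  ∀ (W' : Finset ι) (w : ∀ i, V i) (T : Finset ι → (∀ i, V i) → ℝ), W'.card + d ≤ D0 →
    IsFam P W' d T →
    pint P W' w (SQ T) ≤
      (∏ i ∈ W', M i) * lw lam W' w * ((d.factorial : ℝ) * nrm lam (fun i => t i / M i) T)

lemma nrm_le_div {L : ℝ} (hR : Ref lam L) {t M : ι → ℝ} (ht : ∀ i, 0 < t i) (hM : ∀ i, 1 ≤ M i)
    (T : Finset ι → (∀ i, V i) → ℝ) : nrm lam t T ≤ nrm lam (fun i => t i / M i) T := by
  unfold nrm
  refine sum_le_sum fun D _ => mul_le_mul_of_nonneg_right ?_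
    (sum_nonneg fun x _ => mul_nonneg (W_nonneg hR.nonneg x) (sq_nonneg _))
  refine inv_anti₀ (prod_pos fun i _ => div_pos (ht i) (by linarith [hM i])) ?_
  exact prod_le_prod (fun i _ => (div_pos (ht i) (by linarith [hM i])).le) fun i _ =>
    div_le_self (ht i).le (hM i)

/-- The bound for one `J`. -/
lemma key_JM (h : IsLaw P) {L : ℝ} {D0 : ℕ} {t M : ι → ℝ} (hR : Ref lam L)
    (hI : I1M lam M D0 P) (hM : ∀ i, 1 ≤ M i) (ht : ∀ i, 0 < t i)
    (ih : ∀ d' < d, ConcM lam t M D0 P d') {W' : Finset ι}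
    (w : ∀ i, V i) (hcard : W'.card + d ≤ D0) (hT : IsFam P W' d T) {J : Finset ι}
    (hJ : J.Nonempty) :
    (∏ i ∈ J, t i)⁻¹ * pint P W' w (SJ T J) ≤
      (∏ i ∈ W', M i) * lw lam W' w * ((d - J.card).factorial *
        ∑ D with J ⊆ D, nD lam (fun i => t i / M i) T D) := by
  have hM0 : ∀ i, 0 < M i := fun i => by linarith [hM i]
  have htM : ∀ i, 0 < t i / M i := fun i => div_pos (ht i) (hM0 i)
  have hPM : ∀ A : Finset ι, 0 < ∏ i ∈ A, M i := fun A => prod_pos fun i _ => hM0 i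
  have hlw := lw_nonneg hR W' w
  have hPW := hPM W'
  have hq : 0 ≤ ∑ D with J ⊆ D, nD lam (fun i => t i / M i) T D :=
    sum_nonneg fun D _ => nD_nonneg hR htM D
  have hR0 : 0 ≤ (∏ i ∈ W', M i) * lw lam W' w * ((d - J.card).factorial *
      ∑ D with J ⊆ D, nD lam (fun i => t i / M i) T D) := by positivity
  have hzero : (∀ D : Finset ι, J ⊆ D → T D = 0) →
      (∏ i ∈ J, t i)⁻¹ * pint P W' w (SJ T J) ≤ (∏ i ∈ W', M i) * lw lam W' w *
        ((d - J.card).factorial * ∑ D with J ⊆ D, nD lam (fun i => t i / M i) T D) := by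
    intro h0
    have h1 : pint P W' w (SJ T J) = 0 := by
      have h2 : ∀ y, SJ T J y = 0 := by
        intro y
        unfold SJ
        rw [sum_eq_zero fun D hD => by rw [h0 D (mem_filter.mp hD).2]; rfl]; ring
      unfold pint
      exact sum_eq_zero fun y _ => by rw [h2 y]; simp
    rw [h1, mul_zero]
    exact hR0
  by_cases hJd : d < J.card
  · refine hzero fun D hD => hT.deg D (fun hc => ?_)
    have := card_le_card hD
    omega
  by_cases hWJ : Disjoint W' J
  swap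
  · refine hzero fun D hD => hT.off D (fun hc => hWJ ?_)
    exact (disjoint_of_subset_left hD hc).symm
  push Not at hJd
  have hJ1 : 1 ≤ J.card := card_pos.mpr hJ
  have hcWJ : (W' ∪ J).card = W'.card + J.card := card_union_of_disjoint hWJ
  have hpWJ : ∏ i ∈ W' ∪ J, M i = (∏ i ∈ W', M i) * ∏ i ∈ J, M i := prod_union hWJ
  have h1 : pint P W' w (SJ T J) ≤ ∑ x, W lam x * (((∏ i ∈ W', M i) * ∏ i ∈ J, M i) *
      lw lam W' w * ((d - J.card).factorial * nrm lam (fun i => t i / M i) (pinF T J x))) := by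
    rw [pint_pin h hR (hI.toI1 hR hM) (by omega) hWJ w (SJ T J)]
    refine sum_le_sum fun x _ => mul_le_mul_of_nonneg_left ?_ (W_nonneg hR.nonneg x)
    have h2 : pint P (W' ∪ J) (W'.piecewise w x) (SJ T J) =
        pint P (W' ∪ J) (W'.piecewise w x) (SQ (pinF T J x)) := by
      refine pint_congr _ _ fun y hy => ?_
      unfold SJ SQ
      rw [sum_pinF J T x y]
      intro i hi
      have h3 := hy i (mem_union_right _ hi)
      have h4 : i ∉ W' := fun hc => disjoint_left.mp hWJ hc hi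
      simpa [h4] using h3
    rw [h2]
    have h5 := ih (d - J.card) (by omega) (W' ∪ J) (W'.piecewise w x) (pinF T J x)
      (by rw [hcWJ]; omega) (fam_pin hT x)
    rw [hpWJ, lw_union hWJ] at h5
    have hn := nrm_nonneg (T := pinF T J x) hR htM
    have hPJ := hPM J
    by_cases h0 : lw lam J x = 0
    · rw [h0, inv_zero, zero_mul]
      positivity
    · have h6 : 0 < lw lam J x := lt_of_le_of_ne (lw_nonneg hR J x) (Ne.symm h0)
      calc (lw lam J x)⁻¹ * pint P (W' ∪ J) (W'.piecewise w x) (SQ (pinF T J x)) ≤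
            (lw lam J x)⁻¹ * (((∏ i ∈ W', M i) * ∏ i ∈ J, M i) * (lw lam W' w * lw lam J x) *
            ((d - J.card).factorial * nrm lam (fun i => t i / M i) (pinF T J x))) :=
            mul_le_mul_of_nonneg_left h5 (inv_nonneg.mpr h6.le)
        _ = _ := by field_simp
  have h6 : ∑ x, W lam x * (((∏ i ∈ W', M i) * ∏ i ∈ J, M i) * lw lam W' w *
      ((d - J.card).factorial * nrm lam (fun i => t i / M i) (pinF T J x))) =
      (∏ i ∈ W', M i) * lw lam W' w * ((d - J.card).factorial *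
        ((∏ i ∈ J, t i) * ∑ D with J ⊆ D, nD lam (fun i => t i / M i) T D)) := by
    have e0 : ∏ i ∈ J, t i = (∏ i ∈ J, M i) * ∏ i ∈ J, (t i / M i) := by
      rw [← prod_mul_distrib]
      refine prod_congr rfl fun i _ => ?_
      have := (hM0 i).ne'
      field_simp
    have e1 := nrm_pin (T := T) hR htM J
    rw [e0, mul_assoc (∏ i ∈ J, M i), ← e1, mul_sum, mul_sum, mul_sum]
    refine sum_congr rfl fun x _ => ?_
    ring
  rw [h6] at h1
  have h7 : 0 < ∏ i ∈ J, t i := prod_pos fun i _ => ht i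
  calc (∏ i ∈ J, t i)⁻¹ * pint P W' w (SJ T J) ≤ (∏ i ∈ J, t i)⁻¹ *
        ((∏ i ∈ W', M i) * lw lam W' w * ((d - J.card).factorial *
        ((∏ i ∈ J, t i) * ∑ D with J ⊆ D, nD lam (fun i => t i / M i) T D))) :=
        mul_le_mul_of_nonneg_left h1 (inv_nonneg.mpr h7.le)
    _ = _ := by field_simp

/-- The sum over all nonempty `J`. -/
lemma key_sumM (h : IsLaw P) {L : ℝ} {D0 : ℕ} {t M : ι → ℝ} (hR : Ref lam L)
    (hI : I1M lam M D0 P) (hM : ∀ i, 1 ≤ M i) (ht : ∀ i, 0 < t i)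
    (ih : ∀ d' < d, ConcM lam t M D0 P d') {W' : Finset ι}
    (w : ∀ i, V i) (hcard : W'.card + d ≤ D0) (hT : IsFam P W' d T) :
    ∑ J with J.Nonempty, (∏ i ∈ J, t i)⁻¹ * pint P W' w (SJ T J) ≤
      (∏ i ∈ W', M i) * lw lam W' w *
        (2 * ((d.factorial : ℝ) * nrm lam (fun i => t i / M i) T)) := by
  have hM0 : ∀ i, 0 < M i := fun i => by linarith [hM i]
  have htM : ∀ i, 0 < t i / M i := fun i => div_pos (ht i) (hM0 i)
  have hlw := lw_nonneg hR W' w
  have hPW : 0 < ∏ i ∈ W', M i := prod_pos fun i _ => hM0 i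
  refine (sum_le_sum fun J hJ => key_JM h hR hI hM ht ih w hcard hT (mem_filter.mp hJ).2).trans ?_
  rw [← mul_sum]
  have h1 := sum_fact_nD (T := T) hR htM hT.deg
  have : 0 ≤ (∏ i ∈ W', M i) * lw lam W' w := by positivity
  calc _ ≤ (∏ i ∈ W', M i) * lw lam W' w *
        (2 * d.factorial * nrm lam (fun i => t i / M i) T) :=
        mul_le_mul_of_nonneg_left h1 this
    _ = _ := by ring

/-- The level inequality in degree `d`, in the form consumed by the induction. -/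
def LevM (lam : ∀ i, V i → ℝ) (t M : ι → ℝ) (c : ℝ) (D0 : ℕ) (P : (∀ i, V i) → ℝ) (d : ℕ) :
    Prop :=
  ∀ (W' : Finset ι) (w : ∀ i, V i) (T : Finset ι → (∀ i, V i) → ℝ),
    W'.card + d ≤ D0 → IsFam P W' d T →
      pint P W' w (SQ T) ≤ (∏ i ∈ W', M i) * lw lam W' w * (1 / 2 * nrm lam t T) +
        c * ∑ J with J.Nonempty, (∏ i ∈ J, t i)⁻¹ *
          (pint P W' w (SJ T J) + (∏ i ∈ W', M i) * lw lam W' w * pint P ∅ w (SJ T J))

/-- Near-orthogonality: a family with vanishing partial means is almost orthogonal under every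
pinned law. -/
theorem nearOrthM_lev (h : IsLaw P) {L c : ℝ} {D0 : ℕ} {t M : ι → ℝ} (hR : Ref lam L)
    (hI : I1M lam M D0 P) (hM : ∀ i, 1 ≤ M i) (ht : ∀ i, 0 < t i) (hc0 : 0 ≤ c) (hc : c ≤ 1 / 8)
    (hLev : ∀ d, 1 ≤ d → LevM lam t M c D0 P d) : ∀ d, ConcM lam t M D0 P d := by
  intro d
  induction' d using Nat.strong_induction_on with d ih
  intro W' w T hcard hT
  have hM0 : ∀ i, 0 < M i := fun i => by linarith [hM i]
  have htM : ∀ i, 0 < t i / M i := fun i => div_pos (ht i) (hM0 i)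
  have hPW : 0 < ∏ i ∈ W', M i := prod_pos fun i _ => hM0 i
  have hnr0 : 0 ≤ nrm lam (fun i => t i / M i) T := nrm_nonneg hR htM
  have hnrt := nrm_le_div hR ht hM T
  have hlw := lw_nonneg hR W' w
  have hg := hI W' (by omega) w
  -- degree zero
  rcases Nat.eq_zero_or_pos d with hd | hd
  · subst hd
    have h1 : ∀ y, SQ T y = T ∅ w ^ 2 := by
      intro y
      unfold SQ
      rw [sum_eq_single ∅]
      · rw [hT.dep ∅ (x := y) (y := w) (fun i hi => absurd hi (by simp))]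
      · intro D _ hD
        rw [hT.deg D (fun hc => hD (card_eq_zero.mp hc))]
        rfl
      · intro hc; exact absurd (mem_univ _) hc
    have h2 : nrm lam (fun i => t i / M i) T = T ∅ w ^ 2 := by
      rw [nrm_eq, sum_eq_single ∅]
      · unfold nD
        have : ∀ x, W lam x * T ∅ x ^ 2 = W lam x * T ∅ w ^ 2 := by
          intro x
          rw [hT.dep ∅ (x := x) (y := w) (fun i hi => absurd hi (by simp))]
        rw [sum_congr rfl fun x _ => this x, ← sum_mul, sum_W hR.sum_one]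
        simp
      · intro D _ hD
        have hD' : D.card ≠ 0 := fun hc => hD (card_eq_zero.mp hc)
        unfold nD
        rw [sum_eq_zero fun x _ => by rw [hT.deg D hD']; simp, mul_zero]
      · intro hc; exact absurd (mem_univ _) hc
    have h3 : pint P W' w (SQ T) = marg P W' w * T ∅ w ^ 2 := by
      rw [← pint_const]
      exact pint_congr _ _ fun y _ => h1 y
    rw [h2, h3]
    have h5 : 0 ≤ T ∅ w ^ 2 := sq_nonneg _
    simp only [Nat.factorial_zero, Nat.cast_one, one_mul]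
    exact mul_le_mul_of_nonneg_right hg h5
  have hL := hLev d hd W' w T hcard hT
  have k1 := key_sumM h hR hI hM ht ih w hcard hT
  have k2 := key_sumM h hR hI hM ht ih w (W' := ∅) (by rw [card_empty]; omega) (fam_empty hT)
  have hlw0 : lw lam (∅ : Finset ι) w = 1 := by unfold lw; simp
  rw [prod_empty, one_mul, hlw0, one_mul] at k2
  have e1 : ∑ J with J.Nonempty, (∏ i ∈ J, t i)⁻¹ *
      (pint P W' w (SJ T J) + (∏ i ∈ W', M i) * lw lam W' w * pint P ∅ w (SJ T J)) =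
      ∑ J with J.Nonempty, (∏ i ∈ J, t i)⁻¹ * pint P W' w (SJ T J) +
      (∏ i ∈ W', M i) * lw lam W' w * ∑ J with J.Nonempty,
        (∏ i ∈ J, t i)⁻¹ * pint P ∅ w (SJ T J) := by
    rw [mul_sum, ← sum_add_distrib]
    exact sum_congr rfl fun J _ => by ring
  rw [e1] at hL
  have hMW : 0 ≤ (∏ i ∈ W', M i) * lw lam W' w := by positivity
  have hfd : (1 : ℝ) ≤ d.factorial := by
    exact_mod_cast Nat.one_le_iff_ne_zero.mpr (Nat.factorial_ne_zero d)
  set R : ℝ := (∏ i ∈ W', M i) * lw lam W' w *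
    ((d.factorial : ℝ) * nrm lam (fun i => t i / M i) T) with hRdef
  have hR0 : 0 ≤ R := by rw [hRdef]; positivity
  have a2 : (∏ i ∈ W', M i) * lw lam W' w * (1 / 2 * nrm lam t T) ≤ 1 / 2 * R := by
    rw [hRdef]
    have h1 : nrm lam t T ≤ (d.factorial : ℝ) * nrm lam (fun i => t i / M i) T :=
      hnrt.trans (le_mul_of_one_le_left hnr0 hfd)
    have h2 := mul_le_mul_of_nonneg_left h1 hMW
    linarith
  have a3 : ∑ J with J.Nonempty, (∏ i ∈ J, t i)⁻¹ *
      pint P W' w (SJ T J) + (∏ i ∈ W', M i) * lw lam W' w * ∑ J with J.Nonempty,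
        (∏ i ∈ J, t i)⁻¹ * pint P ∅ w (SJ T J) ≤ 4 * R := by
    have := mul_le_mul_of_nonneg_left k2 hMW
    calc _ ≤ (∏ i ∈ W', M i) * lw lam W' w *
          (2 * ((d.factorial : ℝ) * nrm lam (fun i => t i / M i) T)) +
          (∏ i ∈ W', M i) * lw lam W' w *
          (2 * ((d.factorial : ℝ) * nrm lam (fun i => t i / M i) T)) :=
          add_le_add k1 this
      _ = 4 * R := by rw [hRdef]; ring
  have a4 := mul_le_mul_of_nonneg_left a3 hc0
  have a5 : c * (4 * R) ≤ 1 / 8 * (4 * R) := mul_le_mul_of_nonneg_right hc (by positivity)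
  linarith

/-- The level inequality from the multi-coordinate entropy inequality. -/
theorem levM_of_mei (h : IsLaw P) {Λ L ε κ δ : ℝ} {D0 : ℕ} {t M : ι → ℝ} (hR : Ref lam L)
    (hI : I1M lam M D0 P) (hM : ∀ i, 1 ≤ M i)
    (ht0 : ∀ i, 0 < t i) (ht1 : ∀ i, t i ≤ 1) (hε : 0 ≤ ε) (hκ : 0 ≤ κ) (hL : 0 ≤ L) (hΛ0 : 0 ≤ Λ)
    (hΛ : ∀ d ≤ D0, 12 * ((Fintype.card ι).choose d * Real.exp (L * d)) ≤ Real.exp Λ)
    (hmei : MEIr t ε κ δ P) (hδ : δ ≤ Real.exp (-(2 * Λ + L * D0)))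
    (hs : 176 * ε * (2 * Λ + κ + L * D0) ≤ 1) :
    ∀ d, 1 ≤ d → LevM lam t M (1 / 8) D0 P d := by
  intro d hd W' w T hcard hT
  have hM0 : ∀ i, 0 < M i := fun i => by linarith [hM i]
  have hPW : 0 < ∏ i ∈ W', M i := prod_pos fun i _ => hM0 i
  have hnr0 : 0 ≤ nrm lam t T := nrm_nonneg hR ht0
  have hdb : d ≤ D0 := by omega
  have hg := hI W' (by omega) w
  have hmg0 : 0 ≤ marg P W' w := marg_nonneg (lawProb h) W' w
  have hlw := lw_nonneg hR W' w
  have hMW : 0 ≤ (∏ i ∈ W', M i) * lw lam W' w := by positivity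
  have hMW1 : lw lam W' w ≤ (∏ i ∈ W', M i) * lw lam W' w :=
    le_mul_of_one_le_left hlw (one_le_prodM hM W')
  set Bq : ℝ := ((Fintype.card ι).choose d * Real.exp (L * d)) * nrm lam t T with hBq
  have hBq0 : 0 ≤ Bq := by rw [hBq]; positivity
  have hBq1 : 12 * (Real.exp (-Λ) * Bq) ≤ nrm lam t T := by
    have h1 := hΛ d hdb
    have h2 : Real.exp (-Λ) * (12 * ((Fintype.card ι).choose d * Real.exp (L * d))) ≤ 1 := by
      calc _ ≤ Real.exp (-Λ) * Real.exp Λ := mul_le_mul_of_nonneg_left h1 (Real.exp_pos _).le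
        _ = 1 := by rw [← Real.exp_add]; simp
    calc 12 * (Real.exp (-Λ) * Bq) =
          (Real.exp (-Λ) * (12 * ((Fintype.card ι).choose d * Real.exp (L * d)))) * nrm lam t T := by
          rw [hBq]; ring
      _ ≤ 1 * nrm lam t T := mul_le_mul_of_nonneg_right h2 hnr0
      _ = _ := one_mul _
  have hpos2 : 0 ≤ ∑ J with J.Nonempty, (∏ i ∈ J, t i)⁻¹ *
      (pint P W' w (SJ T J) + (∏ i ∈ W', M i) * lw lam W' w * pint P ∅ w (SJ T J)) := by
    refine sum_nonneg fun J _ => mul_nonneg (inv_nonneg.mpr (prod_nonneg fun i _ => (ht0 i).le)) ?_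
    have := pint_SJ_nonneg (T := T) h W' w J
    have := pint_SJ_nonneg (T := T) h ∅ w J
    positivity
  have hsup : ∀ y, P y ≠ 0 → SQ T y ≤ Bq := fun y hy =>
    sup_le h hR (hI.toI1 hR hM) ht0 ht1 hdb hT hy
  have hAnn : 0 ≤ Real.exp (-Λ) * Bq := by positivity
  by_cases hsm : marg P W' w ≤ Real.exp (-Λ) * lw lam W' w
  · have h1 : pint P W' w (SQ T) ≤ marg P W' w * Bq := by
      rw [← pint_const]
      exact pint_mono h W' w hsup
    have h2 : marg P W' w * Bq ≤ Real.exp (-Λ) * lw lam W' w * Bq :=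
      mul_le_mul_of_nonneg_right hsm hBq0
    have h3 : Real.exp (-Λ) * lw lam W' w * Bq ≤
        (∏ i ∈ W', M i) * lw lam W' w * (1 / 2 * nrm lam t T) := by
      calc Real.exp (-Λ) * lw lam W' w * Bq = lw lam W' w * (Real.exp (-Λ) * Bq) := by ring
        _ ≤ (∏ i ∈ W', M i) * lw lam W' w * (1 / 2 * nrm lam t T) :=
            mul_le_mul hMW1 (by linarith) hAnn hMW
    have h5 : 0 ≤ 1 / 8 * ∑ J with J.Nonempty, (∏ i ∈ J, t i)⁻¹ *
      (pint P W' w (SJ T J) + (∏ i ∈ W', M i) * lw lam W' w * pint P ∅ w (SJ T J)) := by positivity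
    linarith
  push Not at hsm
  have hmpos0 : 0 < marg P W' w := lt_of_le_of_lt (by positivity) hsm
  have hlwpos : 0 < lw lam W' w := by
    rcases hlw.eq_or_lt with h0 | h0
    · rw [← h0, mul_zero] at hg
      exact absurd hmpos0 (not_lt.mpr hg)
    · exact h0
  have hprod : Real.exp (-(L * W'.card)) ≤ lw lam W' w := by
    unfold lw
    calc Real.exp (-(L * W'.card)) = ∏ _i ∈ W', Real.exp (-L) := by
          rw [prod_const, ← Real.exp_nat_mul]; congr 1; ring
      _ ≤ _ := prod_le_prod (fun i _ => (Real.exp_pos _).le) fun i hi => by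
          rcases hR.atoms i (w i) with h0 | h0
          · exfalso
            refine hlwpos.ne' ?_
            unfold lw
            exact prod_eq_zero hi h0
          · exact h0
  have hWb : (W'.card : ℝ) ≤ D0 := by exact_mod_cast (by omega : W'.card ≤ D0)
  have hLW : L * W'.card ≤ L * D0 := mul_le_mul_of_nonneg_left hWb hL
  have hm1 : Real.exp (-(Λ + L * D0)) ≤ marg P W' w := by
    calc Real.exp (-(Λ + L * D0)) ≤ Real.exp (-Λ) * Real.exp (-(L * W'.card)) := by
          rw [← Real.exp_add]; exact Real.exp_le_exp.mpr (by linarith)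
      _ ≤ Real.exp (-Λ) * lw lam W' w := mul_le_mul_of_nonneg_left hprod (Real.exp_pos _).le
      _ ≤ _ := hsm.le
  have hmpos : 0 < marg P W' w := lt_of_lt_of_le (Real.exp_pos _) hm1
  set K := Λ + L * D0 with hK
  have hKb : -Real.log (∑ x ∈ cell W' w, P x) ≤ K := by
    rw [marg_cell]
    have := (Real.le_log_iff_exp_le hmpos).mpr hm1
    linarith
  have hδ2 : δ ≤ Real.exp (-Λ) * ∑ x ∈ cell W' w, P x := by
    rw [marg_cell]
    calc δ ≤ Real.exp (-(2 * Λ + L * D0)) := hδ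
      _ = Real.exp (-Λ) * Real.exp (-(Λ + L * D0)) := by rw [← Real.exp_add]; congr 1; ring
      _ ≤ _ := mul_le_mul_of_nonneg_left hm1 (Real.exp_pos _).le
  have hs1 : 176 * (ε * (Λ + κ + K)) ≤ 1 := by
    have : 176 * (ε * (Λ + κ + K)) = 176 * ε * (2 * Λ + κ + L * D0) := by rw [hK]; ring
    rw [this]; exact hs
  have hB : ∀ x, P x ≠ 0 → |∑ D, T D x| ≤ Real.sqrt Bq := fun x hx => Real.abs_le_sqrt (hsup x hx)
  have hlev := level_pin ht0 ht1 hε hκ h hmei T hT.dep
    (fam_mean hT hd w) hB (cell W' w) (by rw [marg_cell]; exact hmpos) hΛ0 hKb hδ2 (by linarith)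
  rw [marg_cell P, Real.sq_sqrt hBq0] at hlev
  have hlev2 : pint P W' w (SQ T) ≤ marg P W' w * (6 * Real.exp (-Λ) * Bq) +
      22 * ε * (Λ + κ + K) * (pint P W' w (AJ' t T) + marg P W' w * ∑ x, P x * AJ' t T x) := by
    rw [pint_cell, pint_cell]
    exact hlev
  have hAJ0 : ∀ (W' : Finset ι), 0 ≤ pint P W' w (AJ' t T) := fun W' =>
    pint_nonneg h W' w fun y => AJ'_nonneg ht0 ht1 T y
  have h6 : marg P W' w * (6 * Real.exp (-Λ) * Bq) ≤
      (∏ i ∈ W', M i) * lw lam W' w * (1 / 2 * nrm lam t T) :=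
    mul_le_mul hg (by linarith) (by positivity) hMW
  have h7 : pint P W' w (AJ' t T) + marg P W' w * ∑ x, P x * AJ' t T x ≤
      ∑ J with J.Nonempty, (∏ i ∈ J, t i)⁻¹ *
        (pint P W' w (SJ T J) + (∏ i ∈ W', M i) * lw lam W' w * pint P ∅ w (SJ T J)) := by
    have e1 : ∑ J with J.Nonempty, (∏ i ∈ J, t i)⁻¹ *
        (pint P W' w (SJ T J) + (∏ i ∈ W', M i) * lw lam W' w * pint P ∅ w (SJ T J)) =
        ∑ J with J.Nonempty, (∏ i ∈ J, t i)⁻¹ * pint P W' w (SJ T J) +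
        (∏ i ∈ W', M i) * lw lam W' w * ∑ J with J.Nonempty,
          (∏ i ∈ J, t i)⁻¹ * pint P ∅ w (SJ T J) := by
      rw [mul_sum, ← sum_add_distrib]
      exact sum_congr rfl fun J _ => by ring
    rw [e1, ← pint_empty (P := P) w]
    exact add_le_add (pint_AJ'_le h ht0 ht1 T W' w)
      (mul_le_mul hg (pint_AJ'_le h ht0 ht1 T ∅ w) (hAJ0 ∅) hMW)
  have h8 : 0 ≤ pint P W' w (AJ' t T) + marg P W' w * ∑ x, P x * AJ' t T x := by
    rw [← pint_empty (P := P) w]
    have := hAJ0 W'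
    have := hAJ0 ∅
    positivity
  have h9 : 22 * ε * (Λ + κ + K) * (pint P W' w (AJ' t T) +
      marg P W' w * ∑ x, P x * AJ' t T x) ≤
      1 / 8 * ∑ J with J.Nonempty, (∏ i ∈ J, t i)⁻¹ *
        (pint P W' w (SJ T J) + (∏ i ∈ W', M i) * lw lam W' w * pint P ∅ w (SJ T J)) :=
    mul_le_mul (by linarith) h7 h8 (by norm_num)
  linarith

/-- **Near-orthogonality with individual constants.** -/
theorem near_orthM (h : IsLaw P) {Λ L ε κ δ : ℝ} {D0 : ℕ} {t M : ι → ℝ} (hR : Ref lam L)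
    (hI : I1M lam M D0 P) (hM : ∀ i, 1 ≤ M i)
    (ht0 : ∀ i, 0 < t i) (ht1 : ∀ i, t i ≤ 1) (hε : 0 ≤ ε) (hκ : 0 ≤ κ) (hL : 0 ≤ L)
    (hΛ : D0 * (L + Real.log (Fintype.card ι)) + 3 ≤ Λ)
    (hmei : MEIr t ε κ δ P) (hδ : δ ≤ Real.exp (-(3 * Λ)))
    (hs : 176 * ε * (κ + 3 * Λ) ≤ 1) : NearOrthM lam t M D0 P := by
  have hlog : 0 ≤ Real.log (Fintype.card ι) := Real.log_natCast_nonneg _
  have h1 : (D0 : ℝ) * (L + Real.log (Fintype.card ι)) = D0 * L + D0 * Real.log (Fintype.card ι) := by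
    ring
  have h2 : 0 ≤ (D0 : ℝ) * Real.log (Fintype.card ι) := by positivity
  have h3 : 0 ≤ (D0 : ℝ) * L := by positivity
  have h4 : L * D0 ≤ Λ := by rw [mul_comm]; linarith
  have hs' : 176 * ε * (2 * Λ + κ + L * D0) ≤ 1 := by
    refine le_trans ?_ hs
    exact mul_le_mul_of_nonneg_left (by linarith) (by positivity)
  intro d W' w T hcard hT
  exact nearOrthM_lev h hR hI hM ht0 (by norm_num) le_rfl
    (levM_of_mei h hR hI hM ht0 ht1 hε hκ hL (by linarith)
      (fun d hd => choose_exp_le hd hL hΛ) hmei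
      (hδ.trans (Real.exp_le_exp.mpr (by linarith))) hs') d W' w T hcard hT

/-- Energy of a family under a pinned law. -/
lemma pint_AJ_leM (h : IsLaw P) {L : ℝ} {D0 : ℕ} {t M : ι → ℝ} (hR : Ref lam L)
    (hI : I1M lam M D0 P) (hM : ∀ i, 1 ≤ M i) (ht0 : ∀ i, 0 < t i)
    (ht1 : ∀ i, t i ≤ 1) (hN : NearOrthM lam t M D0 P) {W' : Finset ι} (w : ∀ i, V i)
    (hcard : W'.card + d ≤ D0) (hT : IsFam P W' d T) :
    pint P W' w (AJ t T) ≤
      3 * ((∏ i ∈ W', M i) * lw lam W' w *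
        ((d.factorial : ℝ) * nrm lam (fun i => t i / M i) T)) := by
  have h1 : AJ t T = fun y => SQ T y + AJ' t T y := by
    funext y; exact AJ_eq t T y
  rw [h1, pint_add]
  have hC : ∀ d, ConcM lam t M D0 P d := fun d W' w T hc hT => hN d W' w T hc hT
  have h2 := hC d W' w T hcard hT
  have h3 := pint_AJ'_le h ht0 ht1 T W' w
  have h4 := key_sumM h hR hI hM ht0 (fun d' _ => hC d') w hcard hT
  linarith

/-- **Testing a pinned law against a family with vanishing partial means.** -/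
theorem testingM (h : IsLaw P) {L : ℝ} {D0 : ℕ} {t M : ι → ℝ} (hR : Ref lam L)
    (hI : I1M lam M D0 P) (hM : ∀ i, 1 ≤ M i) (ht0 : ∀ i, 0 < t i)
    (ht1 : ∀ i, t i ≤ 1) (hN : NearOrthM lam t M D0 P) {W' : Finset ι} {w : ∀ i, V i}
    (hm : 0 < marg P W' w) {K : ℝ}
    (hK : ∑ R : Finset ι, bw t R * KL (push (rst R) (res (cell W' w) P)) (push (rst R) P) ≤ K)
    (hd : 1 ≤ d) (hcard : W'.card + d ≤ D0) (hT : IsFam P W' d T) :
    (pint P W' w (fun y => ∑ D, T D y)) ^ 2 ≤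
      12 * K * marg P W' w * ((∏ i ∈ W', M i) * lw lam W' w) *
        ((d.factorial : ℝ) * nrm lam (fun i => t i / M i) T) := by
  have hM0 : ∀ i, 0 < M i := fun i => by linarith [hM i]
  have hPW : 0 < ∏ i ∈ W', M i := prod_pos fun i _ => hM0 i
  have hmc : 0 < ∑ y ∈ cell W' w, P y := by rw [marg_cell]; exact hm
  have hnu := isLaw_res h.1 hmc
  have hac := AC_res (cell W' w) P
  have hK0 : 0 ≤ K := by
    refine le_trans (sum_nonneg fun R _ => mul_nonneg (bw_nonneg (fun i => (ht0 i).le) ht1 R) ?_) hK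
    exact (hnu.push (rst R)).KL_nonneg (h.push (rst R)) (hac.push h.1 (rst R))
  have h1 := test_bern ht0 ht1 h hnu hac T hT.dep hK
  have hres : ∀ F : (∀ i, V i) → ℝ,
      ∑ x, res (cell W' w) P x * F x = pint P W' w F / marg P W' w := by
    intro F
    rw [sum_res, marg_cell P, pint_cell]
  rw [fam_mean hT hd w, sub_zero, hres, hres, ← pint_empty (P := P) w] at h1
  have hg := hI W' (by omega) w
  have h2 := pint_AJ_leM h hR hI hM ht0 ht1 hN w hcard hT
  have h3 := pint_AJ_leM h hR hI hM ht0 ht1 hN (W' := ∅) w (by rw [card_empty]; omega)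
    (fam_empty hT)
  have hlw0 : lw lam (∅ : Finset ι) w = 1 := by unfold lw; simp
  rw [prod_empty, one_mul, hlw0, one_mul] at h3
  have h30 : 0 ≤ pint P ∅ w (AJ t T) := pint_nonneg h ∅ w fun y =>
    sum_nonneg fun J _ => mul_nonneg (rate_nonneg ht0 ht1 J) (sq_nonneg _)
  have hlw := lw_nonneg hR W' w
  have hMW : 0 ≤ (∏ i ∈ W', M i) * lw lam W' w := by positivity
  set X : ℝ := (d.factorial : ℝ) * nrm lam (fun i => t i / M i) T with hX
  have h4 : marg P W' w * pint P ∅ w (AJ t T) ≤ (∏ i ∈ W', M i) * lw lam W' w * (3 * X) :=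
    mul_le_mul hg h3 h30 hMW
  have h6 : pint P W' w (AJ t T) + marg P W' w * pint P ∅ w (AJ t T) ≤
      6 * ((∏ i ∈ W', M i) * lw lam W' w * X) := by
    linarith
  have hm2 : 0 ≤ marg P W' w ^ 2 := sq_nonneg _
  have h7 := mul_le_mul_of_nonneg_left h1 hm2
  have hmne : marg P W' w ≠ 0 := hm.ne'
  calc (pint P W' w (fun y => ∑ D, T D y)) ^ 2 =
        marg P W' w ^ 2 * (pint P W' w (fun y => ∑ D, T D y) / marg P W' w) ^ 2 := by
        field_simp
    _ ≤ marg P W' w ^ 2 * (2 * K * (pint P W' w (AJ t T) / marg P W' w +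
          pint P ∅ w (AJ t T))) := h7
    _ = 2 * K * marg P W' w * (pint P W' w (AJ t T) + marg P W' w * pint P ∅ w (AJ t T)) := by
        field_simp
    _ ≤ 2 * K * marg P W' w * (6 * ((∏ i ∈ W', M i) * lw lam W' w * X)) :=
        mul_le_mul_of_nonneg_left h6 (by positivity)
    _ = _ := by rw [hX]; ring

end Vale.Agent.P042.H678
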