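import Vale.Agent.P042.H742.BlockB
import Vale.Agent.P042.H678.NOM

/-!
# P042, block [B]: rows and totals of the connected densities, individual constants

`lam i a * rowQ lam (t / M) i a k d ≤ 12 M_i d! (d+1)^d m1(i,a) I_{i,a}`.
-/

set_option autoImplicit false
set_option linter.unusedSectionVars false

namespace Vale.Agent.P042.H678

open Finset Vale.Agent.P042.H461 Vale.Agent.P042.H416 Vale.Agent.P042.H742
open Vale.Agent.P042.H779 (marg m1)

variable {ι : Type*} [Fintype ι] [DecidableEq ι] {V : ι → Type*} [∀ i, Fintype (V i)]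
  [∀ i, DecidableEq (V i)]

theorem I1M.rep {lam : ∀ i, V i → ℝ} {M : ι → ℝ} {D0 : ℕ} {mu : (∀ i, V i) → ℝ} (hmu : IsLaw mu)
    (h : I1M lam M D0 mu) (N : ℕ) :
    I1M (ι := ι × Fin N) (V := fun p => V p.1) (rlam lam N) (rt M N) D0 (rep mu N) := by
  intro A hA y
  have h1 : ∏ p ∈ A, rt M N p = ∏ r, ∏ i ∈ sl A r, M i := by
    rw [prod_slices]
    rfl
  rw [rep_eq_rps, marg_rps, lw_slices, h1, ← Finset.prod_mul_distrib]
  refine Finset.prod_le_prod (fun r _ => ?_) fun r _ => h _ ((card_sl_le A r).trans hA) _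
  unfold marg
  refine Finset.sum_nonneg fun x _ => ?_
  split_ifs
  · exact hmu.1 x
  · exact le_rfl

/-- **[B], one row**: the testing inequality for the connected densities through `(i, a)` -/
theorem row_testM {mu : (∀ i, V i) → ℝ} (hmu : IsLaw mu) {lam : ∀ i, V i → ℝ} {L : ℝ} {D0 : ℕ}
    {t M : ι → ℝ} (hR : Ref lam L) (hI : I1M lam M D0 mu) (hM : ∀ i, 1 ≤ M i) (ht0 : ∀ i, 0 < t i)
    (ht1 : ∀ i, t i ≤ 1) {d : ℕ} (hd : 1 ≤ d) (hD : d + 1 ≤ D0)
    (hN : NearOrthM (ι := ι × Fin (d + 1)) (V := fun p => V p.1) (rlam lam (d + 1))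
      (rt t (d + 1)) (rt M (d + 1)) D0 (rep mu (d + 1)))
    (i : ι) (a : V i) (hm : 0 < m1 mu i a) {k : Finset ι → (∀ i, V i) → ℝ}
    (hkdep : ∀ C : Finset ι, DependsOn (k C) ((insert i C : Finset ι) : Set ι))
    (hk : IsCumI lam mu i k) {K : ℝ} (hK : Iia t mu i a ≤ K) :
    lam i a * rowQ lam (fun j => t j / M j) i a k d ≤
      12 * M i * (d.factorial : ℝ) * ((d : ℝ) + 1) ^ d * m1 mu i a * K := by
  classical
  have hM0 : ∀ i, 0 < M i := fun i => by linarith [hM i]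
  have htM : ∀ i, 0 < t i / M i := fun i => div_pos (ht0 i) (hM0 i)
  have hI' := hI.toI1 hR hM
  obtain ⟨x0⟩ : Nonempty (∀ i, V i) := by
    by_contra hc
    rw [not_nonempty_iff] at hc
    have := hmu.2
    simp at this
  -- the pin
  set w : ∀ p : ι × Fin (d + 1), V p.1 := fun p => Function.update x0 i a p.1 with hw
  have hwi : w (i, 0) = a := by rw [hw]; simp
  set psi := psiB (fun j => t j / M j) i a k d with hpsi
  have hloc : ∀ e, DependsOn (psi e) (e : Set ι) := psiB_dep hkdep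
  have hipsi : ∀ e, i ∈ e → psi e = 0 := by
    intro e he
    funext x
    rw [hpsi]
    unfold psiB
    rw [if_neg fun h => h.2 he]
    rfl
  have hcpsi : ∀ e, e.card ≠ d → psi e = 0 := by
    intro e he
    funext x
    rw [hpsi]
    unfold psiB
    rw [if_neg fun h => he h.1]
    rfl
  have hfam := Vale.Agent.P042.H540.isFam_rotT mu d i psi hloc hipsi
  have hnrm := Vale.Agent.P042.H540.nrm_rotT lam hR.nonneg hR.sum_one (fun j => t j / M j)
    (fun i => (htM i).le) d psi hloc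
  have htest := Vale.Agent.P042.H540.test_rotT lam hR.sum_one mu hmu.2
    (fun A x h => I1.ac hmu hI' (by omega) A x h) d i k hk psi hloc hipsi hcpsi w
  rw [hwi, hpsi, test_psiB] at htest
  rw [hpsi, nrm_psiB htM] at hnrm
  have hmarg : marg (rep mu (d + 1)) {(i, 0)} w = m1 mu i a := by
    rw [marg_rep_single hmu, hwi]
  have hcell : Vale.Agent.P042.H678.cell (ι := ι × Fin (d + 1)) (V := fun p => V p.1) {(i, 0)} w =
      ev (ι := ι × Fin (d + 1)) (V := fun p => V p.1) (i, 0) a := by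
    ext y
    unfold Vale.Agent.P042.H678.cell ev
    simp only [Finset.mem_filter, Finset.mem_univ, true_and, Finset.mem_singleton, forall_eq]
    rw [hwi]
  have hKr : ∑ R : Finset (ι × Fin (d + 1)), bw (rt t (d + 1)) R *
      KL (push (rst R) (res (Vale.Agent.P042.H678.cell (ι := ι × Fin (d + 1))
        (V := fun p => V p.1) {(i, 0)} w) (rep mu (d + 1)))) (push (rst R) (rep mu (d + 1))) ≤ K := by
    rw [hcell]
    have h := Iia_rep (N := d + 1) t hmu hm 0
    unfold Iia at h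
    rw [h]
    exact hK
  have hmain := testingM (isLaw_rep hmu (d + 1)) (hR.rep (d + 1))
    (hI.rep hmu (d + 1)) (fun p => hM p.1) (fun p => ht0 p.1) (fun p => ht1 p.1) hN
    (W' := {(i, 0)}) (w := w) (by rw [hmarg]; exact hm) hKr hd
    (by rw [Finset.card_singleton]; omega) hfam
  have hlw : lw (rlam lam (d + 1)) {(i, 0)} w = lam i a := by
    unfold lw rlam
    rw [Finset.prod_singleton]
    show lam i (w (i, 0)) = lam i a
    rw [hwi]
  have hPi : ∏ p ∈ ({(i, 0)} : Finset (ι × Fin (d + 1))), rt M (d + 1) p = M i := by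
    rw [Finset.prod_singleton]
    rfl
  rw [htest, hmarg, hPi, hlw] at hmain
  replace hmain : (lam i a * rowQ lam (fun j => t j / M j) i a k d) ^ 2 ≤
      12 * K * m1 mu i a * (M i * lam i a) * ((d.factorial : ℝ) *
        nrm (rlam lam (d + 1)) (rt (fun j => t j / M j) (d + 1))
        (Vale.Agent.P042.H540.rotT d (psiB (fun j => t j / M j) i a k d))) := hmain
  have hQ0 := rowQ_nonneg (lam := lam) hR.nonneg (fun i => (htM i).le) i a k d
  set Q := rowQ lam (fun j => t j / M j) i a k d with hQ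
  have hla := hR.nonneg i a
  have hK0 : 0 ≤ K := by
    refine le_trans (Finset.sum_nonneg fun R _ => mul_nonneg
      (bw_nonneg (fun i => (ht0 i).le) ht1 R) ?_) hK
    have hm' : 0 < ∑ x ∈ ev i a, mu x := by rw [mass_ev]; exact hm
    exact ((isLaw_res hmu.1 hm').push (rst R)).KL_nonneg (hmu.push (rst R))
      ((AC_res (ev i a) mu).push hmu.1 (rst R))
  have hMi := hM0 i
  have hfac : (0 : ℝ) ≤ d.factorial := Nat.cast_nonneg _
  have hRHS : 0 ≤ 12 * M i * (d.factorial : ℝ) * ((d : ℝ) + 1) ^ d * m1 mu i a * K := by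
    positivity
  by_cases hLQ : lam i a * Q = 0
  · rw [hLQ]
    exact hRHS
  have hpos : 0 < lam i a * Q := lt_of_le_of_ne (mul_nonneg hla hQ0) (Ne.symm hLQ)
  have hc : 0 ≤ 12 * K * m1 mu i a * (M i * lam i a) * (d.factorial : ℝ) := by positivity
  have h1 := mul_le_mul_of_nonneg_left hnrm hc
  have h2 : (lam i a * Q) ^ 2 ≤ 12 * K * m1 mu i a * (M i * lam i a) *
      (d.factorial : ℝ) * (((d : ℝ) + 1) ^ d * Q) := by
    refine hmain.trans (le_trans (le_of_eq ?_) (h1.trans (le_of_eq ?_)))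
    · ring
    · ring
  have h3 : (lam i a * Q) * (lam i a * Q) ≤ (lam i a * Q) *
      (12 * M i * (d.factorial : ℝ) * ((d : ℝ) + 1) ^ d * m1 mu i a * K) := by
    calc (lam i a * Q) * (lam i a * Q) = (lam i a * Q) ^ 2 := by ring
      _ ≤ _ := h2
      _ = _ := by ring
  exact le_of_mul_le_mul_left h3 hpos

/-- **[B], all rows**: the testing inequality for all `(i, a)` and all degrees -/
theorem block_rowM {mu : (∀ i, V i) → ℝ} (hmu : IsLaw mu) {lam : ∀ i, V i → ℝ}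
    {L Λ ε κ δ : ℝ} {D0 : ℕ} {t M : ι → ℝ} (hR : Ref lam L) (hI : I1M lam M D0 mu)
    (hM : ∀ i, 1 ≤ M i)
    (ht0 : ∀ i, 0 < t i) (ht1 : ∀ i, t i ≤ 1) (hε : 0 ≤ ε) (hκ : 0 ≤ κ) (hL : 0 ≤ L)
    (hΛ : D0 * (L + Real.log (Fintype.card ι * D0)) + 3 ≤ Λ)
    (hT : ∀ N, N ≤ D0 → MEIr (ι := ι × Fin N) (V := fun p => V p.1) (rt t N) ε κ δ (rep mu N))
    (hδ : δ ≤ Real.exp (-(3 * Λ))) (hs : 176 * ε * (κ + 3 * Λ) ≤ 1)
    {d : ℕ} (hd : 1 ≤ d) (hD : d + 1 ≤ D0) (i : ι) (a : V i) (hm : 0 < m1 mu i a)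
    {k : Finset ι → (∀ i, V i) → ℝ}
    (hkdep : ∀ C : Finset ι, DependsOn (k C) ((insert i C : Finset ι) : Set ι))
    (hk : IsCumI lam mu i k) :
    lam i a * rowQ lam (fun j => t j / M j) i a k d ≤
      12 * M i * (d.factorial : ℝ) * ((d : ℝ) + 1) ^ d * (m1 mu i a * Iia t mu i a) := by
  have hN : NearOrthM (ι := ι × Fin (d + 1)) (V := fun p => V p.1) (rlam lam (d + 1))
      (rt t (d + 1)) (rt M (d + 1)) D0 (rep mu (d + 1)) := by
    refine near_orthM (isLaw_rep hmu (d + 1)) (hR.rep (d + 1))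
      (hI.rep hmu (d + 1)) (fun p => hM p.1) (fun p => ht0 p.1) (fun p => ht1 p.1) hε hκ hL ?_
      (hT _ hD) hδ hs
    refine le_trans ?_ hΛ
    have h1 : Real.log (Fintype.card (ι × Fin (d + 1))) ≤ Real.log (Fintype.card ι * D0) := by
      have : Nonempty ι := ⟨i⟩
      have hc : (0 : ℝ) < Fintype.card ι := by exact_mod_cast Fintype.card_pos
      rw [Fintype.card_prod, Fintype.card_fin, Nat.cast_mul]
      refine Real.log_le_log (mul_pos hc (by positivity)) ?_
      exact mul_le_mul_of_nonneg_left (by exact_mod_cast hD) hc.le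
    have h2 : (0 : ℝ) ≤ D0 := Nat.cast_nonneg _
    have h3 := mul_le_mul_of_nonneg_left (add_le_add_right h1 L) h2
    linarith
  have h := row_testM hmu hR hI hM ht0 ht1 hd hD hN i a hm hkdep hk (le_refl (Iia t mu i a))
  refine h.trans (le_of_eq ?_)
  ring

/-- (D2): the totals, restricted to the roots in any set `S` and with any weights -/
theorem rows_totalM {mu : (∀ i, V i) → ℝ} (hmu : IsLaw mu) {lam : ∀ i, V i → ℝ}
    {L Λ ε κ δ : ℝ} {D0 : ℕ} {t M : ι → ℝ} (hR : Ref lam L) (hI : I1M lam M D0 mu)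
    (hM : ∀ i, 1 ≤ M i)
    (ht0 : ∀ i, 0 < t i) (ht1 : ∀ i, t i ≤ 1) (hε : 0 ≤ ε) (hκ : 0 ≤ κ) (hL : 0 ≤ L)
    (hΛ : D0 * (L + Real.log (Fintype.card ι * D0)) + 3 ≤ Λ)
    (hT : ∀ N, N ≤ D0 → MEIr (ι := ι × Fin N) (V := fun p => V p.1) (rt t N) ε κ δ (rep mu N))
    (hδ : δ ≤ Real.exp (-(3 * Λ))) (hs : 176 * ε * (κ + 3 * Λ) ≤ 1)
    {d : ℕ} (hd : 1 ≤ d) (hD : d + 1 ≤ D0) {k : ι → Finset ι → (∀ i, V i) → ℝ}
    (hkdep : ∀ i, ∀ C : Finset ι, DependsOn (k i C) ((insert i C : Finset ι) : Set ι))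
    (hk : ∀ i, IsCumI lam mu i (k i)) {s : ι → ℝ} (hs0 : ∀ i, 0 ≤ s i) {S : Finset ι} {PP : ℝ}
    (hPP : ∑ i ∈ S, s i * M i * ∑ a, m1 mu i a * Iia t mu i a ≤ PP) :
    ∑ i ∈ S, s i * ∑ a, lam i a * rowQ lam (fun j => t j / M j) i a (k i) d ≤
      12 * (d.factorial : ℝ) * ((d : ℝ) + 1) ^ d * PP := by
  have hp : Vale.Agent.P042.H779.IsProb mu := ⟨hmu.1, hmu.2⟩
  have hM0 : ∀ i, 0 < M i := fun i => by linarith [hM i]
  have hc : 0 ≤ 12 * (d.factorial : ℝ) * ((d : ℝ) + 1) ^ d := by positivity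
  refine le_trans ?_ (mul_le_mul_of_nonneg_left hPP hc)
  rw [Finset.mul_sum]
  refine Finset.sum_le_sum fun i _ => ?_
  have h1 : ∑ a, lam i a * rowQ lam (fun j => t j / M j) i a (k i) d ≤
      12 * M i * (d.factorial : ℝ) * ((d : ℝ) + 1) ^ d * ∑ a, m1 mu i a * Iia t mu i a := by
    rw [Finset.mul_sum]
    refine Finset.sum_le_sum fun a _ => ?_
    rcases (Vale.Agent.P042.H779.m1_nonneg hp i a).eq_or_lt with h | h
    · rw [rowQ_null hmu h.symm (hk i) d, ← h, zero_mul, mul_zero]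
    · exact block_rowM hmu hR hI hM ht0 ht1 hε hκ hL hΛ hT hδ hs hd hD i a h (hkdep i) (hk i)
  calc s i * ∑ a, lam i a * rowQ lam (fun j => t j / M j) i a (k i) d ≤
        s i * (12 * M i * (d.factorial : ℝ) * ((d : ℝ) + 1) ^ d *
          ∑ a, m1 mu i a * Iia t mu i a) :=
        mul_le_mul_of_nonneg_left h1 (hs0 i)
    _ = _ := by ring

/-- the entropy of one event, from `MEIr` -/
theorem m1_Iia_le {mu : (∀ i, V i) → ℝ} (hmu : IsLaw mu) {lam : ∀ i, V i → ℝ}
    {L Λ ε κ δ Mi : ℝ} {t : ι → ℝ} (hR : Ref lam L)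
    (ht0 : ∀ i, 0 < t i) (ht1 : ∀ i, t i ≤ 1) (hε : 0 ≤ ε) (hκ : 0 ≤ κ) (hL : 0 ≤ L)
    (hΛ : 0 ≤ Λ) (hmei : MEIr t ε κ δ mu)
    (hδ : δ ≤ Real.exp (-(3 * Λ))) (i : ι) (a : V i) (hla : lam i a ≠ 0) (hm : 0 < m1 mu i a)
    (hmM : m1 mu i a ≤ Mi * lam i a) :
    m1 mu i a * Iia t mu i a ≤
      lam i a * (ε * (Mi * (κ + L) + 1) + 2 * Real.exp (L - Λ)) := by
  have hla0 : 0 < lam i a := lt_of_le_of_ne (hR.nonneg i a) (Ne.symm hla)
  have hat : Real.exp (-L) ≤ lam i a := (hR.atoms i a).resolve_left hla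
  set m := m1 mu i a with hmdef
  have hMi0 : 0 ≤ Mi := by
    by_contra hc
    push Not at hc
    have := mul_neg_of_neg_of_pos hc hla0
    linarith
  by_cases hδm : δ ≤ m
  · -- the entropy inequality
    have hev : 0 < ∑ x ∈ ev i a, mu x := by rw [mass_ev]; exact hm
    have h1 : Iia t mu i a ≤ ε * (κ - Real.log m) := by
      have h2 := hmei (ev i a) hev (by rw [mass_ev]; exact hδm)
      rw [mass_ev] at h2
      exact h2
    have h2 : m * Iia t mu i a ≤ m * (ε * (κ - Real.log m)) :=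
      mul_le_mul_of_nonneg_left h1 hm.le
    -- - m log m = - m log lam - m log (m / lam)
    have h3 : -(m * Real.log m) ≤ m * L + lam i a := by
      have h4 : Real.log m = Real.log (lam i a) + Real.log (m / lam i a) := by
        rw [← Real.log_mul hla0.ne' (div_pos hm hla0).ne', mul_div_cancel₀ _ hla0.ne']
      have h5 : -L ≤ Real.log (lam i a) := by
        rw [← Real.log_exp (-L)]
        exact Real.log_le_log (Real.exp_pos _) hat
      have h6 : 1 - (m / lam i a)⁻¹ ≤ Real.log (m / lam i a) :=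
        Real.one_sub_inv_le_log_of_pos (div_pos hm hla0)
      have h7 : m * (1 - (m / lam i a)⁻¹) = m - lam i a := by
        field_simp
      have h8 := mul_le_mul_of_nonneg_left h6 hm.le
      have h9 := mul_le_mul_of_nonneg_left h5 hm.le
      rw [h4, mul_add]
      rw [h7] at h8
      linarith
    have h4 : m * (ε * (κ - Real.log m)) = ε * (m * κ + -(m * Real.log m)) := by ring
    have h5 : m * κ + -(m * Real.log m) ≤ Mi * lam i a * (κ + L) + lam i a := by
      have h6 := mul_le_mul_of_nonneg_right hmM (add_nonneg hκ hL)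
      linarith
    have h6 := mul_le_mul_of_nonneg_left h5 hε
    have h7 : 0 ≤ lam i a * (2 * Real.exp (L - Λ)) := by positivity
    rw [h4] at h2
    calc m * Iia t mu i a ≤ ε * (Mi * lam i a * (κ + L) + lam i a) := h2.trans h6
      _ ≤ ε * (Mi * lam i a * (κ + L) + lam i a) + lam i a * (2 * Real.exp (L - Λ)) := by linarith
      _ = _ := by ring
  · push Not at hδm
    have h1 := mul_le_mul_of_nonneg_left (Iia_le_log hmu ht0 ht1 hm) hm.le
    -- - m log m ≤ 2 √m
    have h2 : m * -Real.log m ≤ 2 * Real.sqrt m := by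
      have h3 : Real.log (Real.sqrt m) = Real.log m / 2 := Real.log_sqrt hm.le
      have hs0 : 0 < Real.sqrt m := Real.sqrt_pos.2 hm
      have h4 : 1 - (Real.sqrt m)⁻¹ ≤ Real.log (Real.sqrt m) :=
        Real.one_sub_inv_le_log_of_pos hs0
      have h5 : m * (1 - (Real.sqrt m)⁻¹) = m - Real.sqrt m := by
        have h6 : m = Real.sqrt m * Real.sqrt m := (Real.mul_self_sqrt hm.le).symm
        have h7 : m * (Real.sqrt m)⁻¹ = Real.sqrt m := by
          nth_rewrite 1 [h6]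
          rw [mul_assoc, mul_inv_cancel₀ hs0.ne', mul_one]
        rw [mul_sub, mul_one, h7]
      have h8 := mul_le_mul_of_nonneg_left h4 hm.le
      rw [h5, h3] at h8
      linarith
    have h3 : Real.sqrt m ≤ Real.exp (-Λ) := by
      rw [show Real.exp (-Λ) = Real.sqrt (Real.exp (-(2 * Λ))) by
        rw [Real.sqrt_eq_rpow, ← Real.exp_mul]
        congr 1
        ring]
      refine Real.sqrt_le_sqrt ((hδm.le.trans hδ).trans (Real.exp_le_exp.2 ?_))
      linarith
    have h4 : Real.exp (-Λ) = Real.exp (-L) * Real.exp (L - Λ) := by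
      rw [← Real.exp_add]
      congr 1
      ring
    have h5 : 2 * Real.sqrt m ≤ lam i a * (2 * Real.exp (L - Λ)) := by
      have h6 := mul_le_mul_of_nonneg_right hat (Real.exp_pos (L - Λ)).le
      rw [h4] at h3
      linarith
    have h6 : 0 ≤ lam i a * (ε * (Mi * (κ + L) + 1)) := by positivity
    have h7 : lam i a * (ε * (Mi * (κ + L) + 1) + 2 * Real.exp (L - Λ)) =
        lam i a * (ε * (Mi * (κ + L) + 1)) + lam i a * (2 * Real.exp (L - Λ)) := by ring
    rw [h7]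
    linarith

theorem m1_le_M {mu : (∀ i, V i) → ℝ} (hmu : IsLaw mu) {lam : ∀ i, V i → ℝ} {M : ι → ℝ} {D0 : ℕ}
    (hI : I1M lam M D0 mu) (hD : 1 ≤ D0) (i : ι) (a : V i) : m1 mu i a ≤ M i * lam i a := by
  obtain ⟨x0⟩ : Nonempty (∀ i, V i) := by
    by_contra hc'
    rw [not_nonempty_iff] at hc'
    have := hmu.2
    simp at this
  have h1 := hI {i} (by rw [Finset.card_singleton]; omega) (Function.update x0 i a)
  have h2 : marg mu {i} (Function.update x0 i a) = m1 mu i a := by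
    unfold marg m1
    refine Finset.sum_congr rfl fun y _ => ?_
    simp
  have h3 : lw lam {i} (Function.update x0 i a) = lam i a := by
    unfold lw
    rw [Finset.prod_singleton, Function.update_self]
  rw [h2, h3, Finset.prod_singleton] at h1
  exact h1

/-- (D1): the rows, from `MEIr` for `mu` on the events `x_i = a` -/
theorem rows_supM {mu : (∀ i, V i) → ℝ} (hmu : IsLaw mu) {lam : ∀ i, V i → ℝ}
    {L Λ ε κ δ : ℝ} {D0 : ℕ} {t M : ι → ℝ} (hR : Ref lam L) (hI : I1M lam M D0 mu)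
    (hM : ∀ i, 1 ≤ M i)
    (ht0 : ∀ i, 0 < t i) (ht1 : ∀ i, t i ≤ 1) (hε : 0 ≤ ε) (hκ : 0 ≤ κ) (hL : 0 ≤ L)
    (hΛ : D0 * (L + Real.log (Fintype.card ι * D0)) + 3 ≤ Λ)
    (hT : ∀ N, N ≤ D0 → MEIr (ι := ι × Fin N) (V := fun p => V p.1) (rt t N) ε κ δ (rep mu N))
    (hmei : MEIr t ε κ δ mu)
    (hδ : δ ≤ Real.exp (-(3 * Λ))) (hs : 176 * ε * (κ + 3 * Λ) ≤ 1)
    {d : ℕ} (hd : 1 ≤ d) (hD : d + 1 ≤ D0) (i : ι) (a : V i) (hla : lam i a ≠ 0)
    {k : Finset ι → (∀ i, V i) → ℝ}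
    (hkdep : ∀ C : Finset ι, DependsOn (k C) ((insert i C : Finset ι) : Set ι))
    (hk : IsCumI lam mu i k) :
    rowQ lam (fun j => t j / M j) i a k d ≤ 12 * M i * (d.factorial : ℝ) * ((d : ℝ) + 1) ^ d *
      (ε * (M i * (κ + L) + 1) + 2 * Real.exp (L - Λ)) := by
  have hp : Vale.Agent.P042.H779.IsProb mu := ⟨hmu.1, hmu.2⟩
  have hM0 : 0 < M i := by linarith [hM i]
  have hc : 0 ≤ 12 * M i * (d.factorial : ℝ) * ((d : ℝ) + 1) ^ d := by positivity
  have hla0 : 0 < lam i a := lt_of_le_of_ne (hR.nonneg i a) (Ne.symm hla)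
  have hX : 0 ≤ ε * (M i * (κ + L) + 1) + 2 * Real.exp (L - Λ) := by positivity
  rcases (Vale.Agent.P042.H779.m1_nonneg hp i a).eq_or_lt with hm | hm
  · have h1 := rowQ_null (t := fun j => t j / M j) hmu hm.symm hk d
    have h2 : rowQ lam (fun j => t j / M j) i a k d = 0 := (mul_eq_zero.1 h1).resolve_left hla
    rw [h2]
    exact mul_nonneg hc hX
  have hrow := block_rowM hmu hR hI hM ht0 ht1 hε hκ hL hΛ hT hδ hs hd hD i a hm hkdep hk
  have hΛ0 : 0 ≤ Λ := by
    refine le_trans ?_ hΛ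
    have h4 : 0 ≤ Real.log (Fintype.card ι * D0) := by
      rw [← Nat.cast_mul]
      exact Real.log_natCast_nonneg _
    positivity
  have key := m1_Iia_le hmu hR ht0 ht1 hε hκ hL hΛ0 hmei hδ i a hla hm
    (m1_le_M hmu hI (by omega) i a)
  have h1 := mul_le_mul_of_nonneg_left key hc
  have h2 : lam i a * rowQ lam (fun j => t j / M j) i a k d ≤
      lam i a * (12 * M i * (d.factorial : ℝ) * ((d : ℝ) + 1) ^ d *
        (ε * (M i * (κ + L) + 1) + 2 * Real.exp (L - Λ))) := by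
    refine hrow.trans (h1.trans (le_of_eq ?_))
    ring
  exact le_of_mul_le_mul_left h2 hla0

end Vale.Agent.P042.H678
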