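import Vale.Agent.P042.H742.Defs

/-! Block [B]: near-orthogonality for families all of whose partial means vanish, with an arbitrary
reference. -/

set_option autoImplicit false

namespace Vale.Agent.P042.H678

open Finset
open Vale.Agent.P042.H461 Vale.Agent.P042.H416 Vale.Agent.P042.H742
open Vale.Agent.P042.H779 (marg marg_nonneg marg_congr marg_update marg_anti IsProb)

set_option linter.unusedSectionVars false

variable {ι : Type*} [Fintype ι] [DecidableEq ι] {V : ι → Type*} [∀ i, Fintype (V i)]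
  [∀ i, DecidableEq (V i)]

/-- The square of the partial sum over the sets containing `J`. -/
def SJ (T : Finset ι → (∀ i, V i) → ℝ) (J : Finset ι) (y : ∀ i, V i) : ℝ :=
  (∑ D with J ⊆ D, T D y) ^ 2

/-- The family pinned at `u` on `J`. -/
def pinF (T : Finset ι → (∀ i, V i) → ℝ) (J : Finset ι) (u : ∀ i, V i) :
    Finset ι → (∀ i, V i) → ℝ :=
  fun E x => if Disjoint E J then T (J ∪ E) (J.piecewise u x) else 0

section basic
variable {P : (∀ i, V i) → ℝ} {lam : ∀ i, V i → ℝ}

lemma lawProb (h : IsLaw P) : IsProb P := ⟨h.1, h.2⟩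

lemma le_marg (h : IsLaw P) (R : Finset ι) (x : ∀ i, V i) : P x ≤ marg P R x := by
  unfold marg
  have h1 := single_le_sum (s := univ) (f := fun y => if (∀ i ∈ R, y i = x i) then P y else 0)
    (fun y _ => by
      split_ifs
      · exact h.1 y
      · exact le_rfl) (mem_univ x)
  simpa using h1

lemma lw_nonneg {L : ℝ} (hR : Ref lam L) (A : Finset ι) (x : ∀ i, V i) : 0 ≤ lw lam A x :=
  prod_nonneg fun i _ => hR.nonneg i _

lemma eq_zero_of_lw (h : IsLaw P) {M : ℝ} {D0 : ℕ} (hI : I1 lam M D0 P) {A : Finset ι}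
    (hA : A.card ≤ D0) {x : ∀ i, V i} (h0 : lw lam A x = 0) : P x = 0 := by
  refine le_antisymm ?_ (h.1 x)
  have h1 := hI A hA x
  rw [h0, mul_zero] at h1
  exact (le_marg h A x).trans h1

lemma pint_nonneg (h : IsLaw P) (W : Finset ι) (w : ∀ i, V i) {F : (∀ i, V i) → ℝ}
    (hF : ∀ y, 0 ≤ F y) : 0 ≤ pint P W w F := by
  unfold pint
  refine sum_nonneg fun y _ => ?_
  split_ifs
  · exact mul_nonneg (h.1 y) (hF y)
  · exact le_rfl

lemma pint_mono (h : IsLaw P) (W : Finset ι) (w : ∀ i, V i) {F G : (∀ i, V i) → ℝ}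
    (hFG : ∀ y, P y ≠ 0 → F y ≤ G y) : pint P W w F ≤ pint P W w G := by
  unfold pint
  refine sum_le_sum fun y _ => ?_
  split_ifs
  · by_cases h0 : P y = 0
    · rw [h0, zero_mul, zero_mul]
    · exact mul_le_mul_of_nonneg_left (hFG y h0) (h.1 y)
  · exact le_rfl

lemma pint_congr (W : Finset ι) (w : ∀ i, V i) {F G : (∀ i, V i) → ℝ}
    (hFG : ∀ y : ∀ i, V i, (∀ i ∈ W, y i = w i) → F y = G y) : pint P W w F = pint P W w G := by
  unfold pint
  refine sum_congr rfl fun y _ => ?_
  split_ifs with hy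
  · rw [hFG y hy]
  · rfl

lemma pint_const (W : Finset ι) (w : ∀ i, V i) (c : ℝ) :
    pint P W w (fun _ => c) = marg P W w * c := by
  unfold pint marg
  rw [sum_mul]
  refine sum_congr rfl fun y _ => ?_
  split_ifs
  · rfl
  · rw [zero_mul]

lemma pint_empty (w : ∀ i, V i) (F : (∀ i, V i) → ℝ) : pint P ∅ w F = ∑ y, P y * F y := by
  unfold pint
  simp

lemma pint_add (W : Finset ι) (w : ∀ i, V i) (F G : (∀ i, V i) → ℝ) :
    pint P W w (fun y => F y + G y) = pint P W w F + pint P W w G := by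
  unfold pint
  rw [← sum_add_distrib]
  refine sum_congr rfl fun y _ => ?_
  split_ifs
  · ring
  · simp

lemma pint_sum {κ : Type*} (s : Finset κ) (W : Finset ι) (w : ∀ i, V i) (c : κ → ℝ)
    (F : κ → (∀ i, V i) → ℝ) :
    pint P W w (fun y => ∑ k ∈ s, c k * F k y) = ∑ k ∈ s, c k * pint P W w (F k) := by
  unfold pint
  simp only [mul_sum]
  rw [sum_comm]
  refine sum_congr rfl fun y _ => ?_
  split_ifs
  · exact sum_congr rfl fun k _ => by ring
  · simp

/-- Mass of a cylinder under the reference. -/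
lemma W_match {L : ℝ} (hR : Ref lam L) (J : Finset ι) (y : ∀ i, V i) :
    ∑ x, (if (∀ i ∈ J, x i = y i) then W lam x else 0) = lw lam J y := by
  have h1 : ∀ x : ∀ i, V i, (if (∀ i ∈ J, x i = y i) then W lam x else 0) =
      ∏ i, (if i ∈ J then (if x i = y i then lam i (x i) else 0) else lam i (x i)) := by
    intro x
    split_ifs with hx
    · unfold W
      refine prod_congr rfl fun i _ => ?_
      split_ifs with h2 h3
      · rfl
      · exact absurd (hx i h2) h3
      · rfl
    · push Not at hx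
      obtain ⟨i, hi, hxi⟩ := hx
      refine (prod_eq_zero (mem_univ i) ?_).symm
      rw [if_pos hi, if_neg hxi]
  simp only [h1]
  rw [← Fintype.piFinset_univ,
    ← Finset.prod_univ_sum (fun i => (univ : Finset (V i)))
      (fun i a => if i ∈ J then (if a = y i then lam i a else 0) else lam i a)]
  rw [← prod_filter_mul_prod_filter_not univ (fun i => i ∈ J)]
  have h2 : ∏ i ∈ univ.filter (fun i => i ∈ J), (∑ a, if i ∈ J then
      (if a = y i then lam i a else 0) else lam i a) = lw lam J y := by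
    unfold lw
    rw [filter_mem_eq_inter, univ_inter]
    refine prod_congr rfl fun i hi => ?_
    simp [hi]
  have h3 : ∏ i ∈ univ.filter (fun i => ¬ i ∈ J), (∑ a, if i ∈ J then
      (if a = y i then lam i a else 0) else lam i a) = 1 := by
    refine prod_eq_one fun i hi => ?_
    rw [mem_filter] at hi
    simp [hi.2, hR.sum_one]
  rw [h2, h3, mul_one]

/-- Gluing two independent samples of the reference. -/
lemma W_glue {L : ℝ} (hR : Ref lam L) (J : Finset ι) (f : (∀ i, V i) → ℝ) :
    ∑ x, W lam x * ∑ y, W lam y * f (J.piecewise x y) = ∑ z, W lam z * f z := by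
  have hL : ∑ x, W lam x * ∑ y, W lam y * f (J.piecewise x y) =
      ∑ p : (∀ i, V i) × (∀ i, V i), W lam p.1 * (W lam p.2 * f (J.piecewise p.1 p.2)) := by
    rw [Fintype.sum_prod_type]
    exact sum_congr rfl fun x _ => by rw [mul_sum]
  have hR' : ∑ z, W lam z * f z =
      ∑ p : (∀ i, V i) × (∀ i, V i), W lam p.1 * (W lam p.2 * f p.1) := by
    rw [Fintype.sum_prod_type]
    refine sum_congr rfl fun x _ => ?_
    show W lam x * f x = ∑ y, W lam x * (W lam y * f x)
    rw [← mul_sum, ← sum_mul, sum_W hR.sum_one, one_mul]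
  rw [hL, hR']
  have hpp : ∀ x y : ∀ i, V i, J.piecewise (J.piecewise x y) (J.piecewise y x) = x := by
    intro x y
    funext i
    by_cases hi : i ∈ J <;> simp [hi]
  let e : (∀ i, V i) × (∀ i, V i) ≃ (∀ i, V i) × (∀ i, V i) :=
    { toFun := fun p => (J.piecewise p.1 p.2, J.piecewise p.2 p.1)
      invFun := fun p => (J.piecewise p.1 p.2, J.piecewise p.2 p.1)
      left_inv := fun p => by simp only [hpp]
      right_inv := fun p => by simp only [hpp] }
  refine Fintype.sum_equiv e _ _ fun p => ?_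
  obtain ⟨x, y⟩ := p
  simp only [e, Equiv.coe_fn_mk]
  have h1 : W lam (J.piecewise x y) * W lam (J.piecewise y x) = W lam x * W lam y := by
    unfold W
    rw [← prod_mul_distrib, ← prod_mul_distrib]
    refine prod_congr rfl fun i _ => ?_
    by_cases hi : i ∈ J
    · simp [hi]
    · simp [hi, mul_comm]
  rw [← mul_assoc, ← mul_assoc, h1]

lemma lw_union {W' J : Finset ι} (hWJ : Disjoint W' J) (w x : ∀ i, V i) :
    lw lam (W' ∪ J) (W'.piecewise w x) = lw lam W' w * lw lam J x := by
  unfold lw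
  rw [prod_union hWJ]
  congr 1
  · exact prod_congr rfl fun i hi => by simp [hi]
  · refine prod_congr rfl fun i hi => ?_
    have : i ∉ W' := fun hc => disjoint_left.mp hWJ hc hi
    simp [this]

/-- Conditioning further on the coordinates in `J`. -/
lemma pint_pin (h : IsLaw P) {L M : ℝ} {D0 : ℕ} (hR : Ref lam L) (hI : I1 lam M D0 P)
    {W' J : Finset ι} (hJ : J.card ≤ D0) (hWJ : Disjoint W' J) (w : ∀ i, V i)
    (F : (∀ i, V i) → ℝ) :
    pint P W' w F = ∑ x, W lam x * ((lw lam J x)⁻¹ * pint P (W' ∪ J) (W'.piecewise w x) F) := by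
  have hcond : ∀ x y : ∀ i, V i, (∀ i ∈ W' ∪ J, y i = (W'.piecewise w x : ∀ i, V i) i) ↔
      ((∀ i ∈ W', y i = w i) ∧ ∀ i ∈ J, x i = y i) := by
    intro x y
    constructor
    · intro hy
      refine ⟨fun i hi => ?_, fun i hi => ?_⟩
      · have := hy i (mem_union_left _ hi)
        simpa [hi] using this
      · have h2 := hy i (mem_union_right _ hi)
        have : i ∉ W' := fun hc => disjoint_left.mp hWJ hc hi
        simp [this] at h2
        exact h2.symm
    · rintro ⟨h1, h2⟩ i hi
      by_cases hiW : i ∈ W'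
      · simp [hiW, h1 i hiW]
      · rcases mem_union.mp hi with h3 | h3
        · exact absurd h3 hiW
        · simp [hiW, h2 i h3]
  unfold pint
  have h1 : ∀ x : ∀ i, V i, W lam x * ((lw lam J x)⁻¹ *
      ∑ y, (if (∀ i ∈ W' ∪ J, y i = (W'.piecewise w x : ∀ i, V i) i) then P y * F y else 0)) =
      ∑ y, (if (∀ i ∈ W', y i = w i) then P y * F y else 0) *
        ((if (∀ i ∈ J, x i = y i) then W lam x else 0) * (lw lam J y)⁻¹) := by
    intro x
    rw [mul_sum, mul_sum]
    refine sum_congr rfl fun y _ => ?_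
    by_cases hy1 : ∀ i ∈ W', y i = w i
    · by_cases hy2 : ∀ i ∈ J, x i = y i
      · rw [if_pos ((hcond x y).mpr ⟨hy1, hy2⟩), if_pos hy1, if_pos hy2]
        have : lw lam J x = lw lam J y := prod_congr rfl fun i hi => by rw [hy2 i hi]
        rw [this]; ring
      · rw [if_neg (fun hc => hy2 ((hcond x y).mp hc).2), if_neg hy2]; simp
    · rw [if_neg (fun hc => hy1 ((hcond x y).mp hc).1), if_neg hy1]; simp
  simp only [h1]
  rw [sum_comm]
  refine sum_congr rfl fun y _ => ?_
  rw [← mul_sum, ← sum_mul, W_match hR J y]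
  by_cases h0 : lw lam J y = 0
  · rw [eq_zero_of_lw h hI hJ h0]; simp
  · rw [mul_inv_cancel₀ h0, mul_one]

end basic

section fam
variable {P : (∀ i, V i) → ℝ} {lam : ∀ i, V i → ℝ} {T : Finset ι → (∀ i, V i) → ℝ} {d : ℕ}

/-- Reindexing of the sets containing `J ∪ J'`. -/
lemma sum_reindex (J J' : Finset ι) (hJ : Disjoint J' J) (φ : Finset ι → ℝ) :
    ∑ D with J ∪ J' ⊆ D, φ D = ∑ E with J' ⊆ E, if Disjoint E J then φ (J ∪ E) else 0 := by
  rw [← sum_filter, filter_filter]
  refine sum_bij' (fun D _ => D \ J) (fun E _ => J ∪ E) ?_ ?_ ?_ ?_ ?_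
  · intro D hD
    simp only [mem_filter, mem_univ, true_and] at hD ⊢
    refine ⟨fun i hi => ?_, sdiff_disjoint⟩
    rw [mem_sdiff]
    exact ⟨hD (mem_union_right _ hi), fun hc => disjoint_left.mp hJ hi hc⟩
  · intro E hE
    simp only [mem_filter, mem_univ, true_and] at hE ⊢
    exact union_subset_union_right hE.1
  · intro D hD
    simp only [mem_filter, mem_univ, true_and] at hD
    exact union_sdiff_of_subset (subset_union_left.trans hD)
  · intro E hE
    simp only [mem_filter, mem_univ, true_and] at hE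
    ext i
    simp only [mem_sdiff, mem_union]
    constructor
    · rintro ⟨h1 | h1, h2⟩
      · exact absurd h1 h2
      · exact h1
    · intro h1
      exact ⟨Or.inr h1, fun hc => disjoint_left.mp hE.2 h1 hc⟩
  · intro D hD
    simp only [mem_filter, mem_univ, true_and] at hD
    rw [union_sdiff_of_subset (subset_union_left.trans hD)]

lemma filter_empty_sub : univ.filter (fun E : Finset ι => ∅ ⊆ E) = univ := by
  ext E; simp

lemma piecewise_piecewise (J J' : Finset ι) (u v y : ∀ i, V i) :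
    (J ∪ J').piecewise (J.piecewise u v) y = J.piecewise u (J'.piecewise v y) := by
  funext i
  by_cases h1 : i ∈ J
  · simp [h1]
  · by_cases h2 : i ∈ J' <;> simp [h1, h2]

lemma fam_pin {W' : Finset ι} (hT : IsFam P W' d T) {J : Finset ι} (u : ∀ i, V i) :
    IsFam P (W' ∪ J) (d - J.card) (pinF T J u) := by
  refine ⟨fun D hD => ?_, fun D hD => ?_, fun D x y hxy => ?_, fun J' hJ' v => ?_⟩
  · funext x
    unfold pinF
    split_ifs with h1
    · rw [hT.deg _ (fun hc => hD ?_)]
      · rfl
      · rw [card_union_of_disjoint h1.symm] at hc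
        omega
    · rfl
  · funext x
    unfold pinF
    split_ifs with h1
    · rw [hT.off _ (fun hc => hD ?_)]
      · rfl
      · rw [disjoint_union_right]
        exact ⟨disjoint_of_subset_left subset_union_right hc, h1⟩
    · rfl
  · unfold pinF
    split_ifs with h1
    · refine hT.dep _ fun i hi => ?_
      by_cases h2 : i ∈ J
      · simp [h2]
      · rcases mem_union.mp (mem_coe.mp hi) with h3 | h3
        · exact absurd h3 h2
        · simp [h2, hxy i (mem_coe.mpr h3)]
    · rfl
  · by_cases h1 : Disjoint J' J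
    · have h2 := hT.zz (J ∪ J') (by
        rw [card_union_of_disjoint h1.symm]; omega) (J.piecewise u v)
      rw [sum_reindex J J' h1] at h2
      rw [← h2]
      refine sum_congr rfl fun E _ => ?_
      unfold pinF
      split_ifs with h3
      · refine sum_congr rfl fun y _ => ?_
        rw [piecewise_piecewise]
      · simp
    · refine sum_eq_zero fun E hE => ?_
      simp only [mem_filter, mem_univ, true_and] at hE
      refine sum_eq_zero fun y _ => ?_
      unfold pinF
      rw [if_neg (fun hc => h1 (disjoint_of_subset_left hE hc)), mul_zero]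

/-- The partial sum through the pinned family. -/
lemma sum_pinF (J : Finset ι) (T : Finset ι → (∀ i, V i) → ℝ) (u y : ∀ i, V i)
    (huy : ∀ i ∈ J, y i = u i) :
    ∑ D with J ⊆ D, T D y = ∑ E, pinF T J u E y := by
  have h1 := sum_reindex J ∅ (disjoint_empty_left _) (fun D => T D y)
  rw [union_empty] at h1
  rw [h1, filter_empty_sub]
  refine sum_congr rfl fun E _ => ?_
  unfold pinF
  have h3 : J.piecewise u y = y := by
    funext i
    by_cases hi : i ∈ J
    · simp [hi, huy i hi]
    · simp [hi]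
  rw [h3]

/-- Norm of one member. -/
noncomputable def nD (lam : ∀ i, V i → ℝ) (t : ι → ℝ) (T : Finset ι → (∀ i, V i) → ℝ)
    (D : Finset ι) : ℝ := (∏ i ∈ D, t i)⁻¹ * ∑ x, W lam x * T D x ^ 2

lemma nD_nonneg {L : ℝ} (hR : Ref lam L) {t : ι → ℝ} (ht : ∀ i, 0 < t i) (D : Finset ι) :
    0 ≤ nD lam t T D :=
  mul_nonneg (inv_nonneg.mpr (prod_nonneg fun i _ => (ht i).le))
    (sum_nonneg fun x _ => mul_nonneg (W_nonneg hR.nonneg x) (sq_nonneg _))

lemma nrm_eq (lam : ∀ i, V i → ℝ) (t : ι → ℝ) (T : Finset ι → (∀ i, V i) → ℝ) :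
    nrm lam t T = ∑ D, nD lam t T D := rfl

lemma nrm_nonneg {L : ℝ} (hR : Ref lam L) {t : ι → ℝ} (ht : ∀ i, 0 < t i) :
    0 ≤ nrm lam t T := by
  rw [nrm_eq]; exact sum_nonneg fun D _ => nD_nonneg hR ht D

/-- Average norm of the pinned family. -/
lemma nrm_pin {L : ℝ} (hR : Ref lam L) {t : ι → ℝ} (ht : ∀ i, 0 < t i) (J : Finset ι) :
    ∑ x, W lam x * nrm lam t (pinF T J x) = (∏ i ∈ J, t i) * ∑ D with J ⊆ D, nD lam t T D := by
  have h1 := sum_reindex J ∅ (disjoint_empty_left _) (fun D => (∏ i ∈ J, t i) * nD lam t T D)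
  rw [union_empty, ← mul_sum] at h1
  rw [h1, filter_empty_sub]
  unfold nrm
  simp only [mul_sum]
  rw [sum_comm]
  refine sum_congr rfl fun E _ => ?_
  by_cases hE : Disjoint E J
  · rw [if_pos hE]
    have h3 := W_glue hR J (fun z => T (J ∪ E) z ^ 2)
    unfold nD pinF
    rw [← h3, prod_union hE.symm]
    have h4 : ∏ i ∈ J, t i ≠ 0 := (prod_pos fun i _ => ht i).ne'
    have h5 : ∏ i ∈ E, t i ≠ 0 := (prod_pos fun i _ => ht i).ne'
    rw [mul_sum, mul_sum]
    refine sum_congr rfl fun x _ => ?_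
    rw [mul_sum, mul_sum, mul_sum]
    refine sum_congr rfl fun y _ => ?_
    rw [if_pos hE]
    field_simp
  · rw [if_neg hE]
    refine sum_eq_zero fun x _ => sum_eq_zero fun y _ => ?_
    unfold pinF
    rw [if_neg hE]; ring

lemma sum_inv_fact (n : ℕ) : ∑ j ∈ range (n + 2), (1 : ℝ) / j.factorial ≤ 3 - 1 / (n + 1).factorial := by
  induction n with
  | zero => norm_num [sum_range_succ]
  | succ n ih =>
    rw [sum_range_succ]
    have h1 : (1 : ℝ) / ((n + 2).factorial : ℝ) ≤ 1 / (n + 1).factorial - 1 / (n + 2).factorial := by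
      have h2 : ((n + 2).factorial : ℝ) = ((n : ℝ) + 2) * (n + 1).factorial := by
        rw [Nat.factorial_succ (n + 1)]; push_cast; ring
      have h3 : (0 : ℝ) < (n + 1).factorial := by positivity
      rw [h2, le_sub_iff_add_le, ← add_div, div_le_div_iff₀ (by positivity) h3]
      nlinarith [(Nat.cast_nonneg n : (0 : ℝ) ≤ n)]
    have h4 : n + 1 + 1 = n + 2 := rfl
    rw [h4]
    linarith

lemma sum_choose_fact (d : ℕ) :
    ∑ j ∈ range (d + 1), (d.choose j : ℝ) * (d - j).factorial ≤ 3 * d.factorial := by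
  have h1 : ∀ j ∈ range (d + 1), (d.choose j : ℝ) * (d - j).factorial =
      d.factorial * (1 / j.factorial) := by
    intro j hj
    have hj' : j ≤ d := by rw [mem_range] at hj; omega
    have e1 : d.choose j * j.factorial * (d - j).factorial = d.factorial :=
      Nat.choose_mul_factorial_mul_factorial hj'
    have e1' : (d.choose j : ℝ) * j.factorial * (d - j).factorial = d.factorial := by exact_mod_cast e1
    have h3 : (0 : ℝ) < j.factorial := by positivity
    rw [← e1']
    field_simp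
  rw [sum_congr rfl h1, ← mul_sum]
  have h2 : ∑ j ∈ range (d + 1), (1 : ℝ) / j.factorial ≤ 3 := by
    rcases d with _ | d
    · norm_num
    · have := sum_inv_fact d
      have h3 : (0 : ℝ) ≤ 1 / (d + 1).factorial := by positivity
      linarith
  have : (0 : ℝ) ≤ d.factorial := by positivity
  nlinarith

/-- Sum over the nonempty subsets of a set of size `d`. -/
lemma sum_sub_fact (D : Finset ι) :
    ∑ J ∈ D.powerset.filter (·.Nonempty), ((D.card - J.card).factorial : ℝ) ≤ 2 * D.card.factorial := by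
  have h1 : ∑ J ∈ D.powerset, ((D.card - J.card).factorial : ℝ) =
      ∑ j ∈ range (D.card + 1), (D.card.choose j : ℝ) * (D.card - j).factorial := by
    rw [sum_powerset]
    refine sum_congr rfl fun j _ => ?_
    have : ∀ J ∈ D.powersetCard j, ((D.card - J.card).factorial : ℝ) = (D.card - j).factorial := by
      intro J hJ
      rw [(mem_powersetCard.mp hJ).2]
    rw [sum_congr rfl this, sum_const, card_powersetCard, nsmul_eq_mul]
  have h2 := sum_choose_fact D.card
  have h3 : D.powerset = insert ∅ (D.powerset.filter (·.Nonempty)) := by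
    ext J
    simp only [mem_powerset, mem_insert, mem_filter]
    constructor
    · intro hJ
      rcases J.eq_empty_or_nonempty with h | h
      · exact Or.inl h
      · exact Or.inr ⟨hJ, h⟩
    · rintro (h | h)
      · rw [h]; exact empty_subset _
      · exact h.1
  have h4 : ∑ J ∈ D.powerset, ((D.card - J.card).factorial : ℝ) =
      D.card.factorial + ∑ J ∈ D.powerset.filter (·.Nonempty), ((D.card - J.card).factorial : ℝ) := by
    conv_lhs => rw [h3]
    rw [sum_insert (by simp)]
    simp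
  linarith

/-- The square of the sum of the family. -/
def SQ (T : Finset ι → (∀ i, V i) → ℝ) (y : ∀ i, V i) : ℝ := (∑ D, T D y) ^ 2

/-- The conclusion in degree `d`. -/
def Conc (lam : ∀ i, V i → ℝ) (t : ι → ℝ) (M : ℝ) (D0 : ℕ) (P : (∀ i, V i) → ℝ) (d : ℕ) : Prop :=
  ∀ (W' : Finset ι) (w : ∀ i, V i) (T : Finset ι → (∀ i, V i) → ℝ), W'.card + d ≤ D0 →
    IsFam P W' d T →
    pint P W' w (SQ T) ≤ M ^ W'.card * lw lam W' w * ((d.factorial : ℝ) * M ^ d) * nrm lam t T

lemma pint_SJ_nonneg (h : IsLaw P) (W' : Finset ι) (w : ∀ i, V i) (J : Finset ι) :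
    0 ≤ pint P W' w (SJ T J) := pint_nonneg h W' w fun _ => sq_nonneg _

/-- The bound for one `J`. -/
lemma key_J (h : IsLaw P) {M L : ℝ} {D0 : ℕ} {t : ι → ℝ} (hR : Ref lam L) (hI : I1 lam M D0 P)
    (hM : 1 ≤ M) (ht : ∀ i, 0 < t i) (ih : ∀ d' < d, Conc lam t M D0 P d') {W' : Finset ι}
    (w : ∀ i, V i) (hcard : W'.card + d ≤ D0) (hT : IsFam P W' d T) {J : Finset ι}
    (hJ : J.Nonempty) :
    (∏ i ∈ J, t i)⁻¹ * pint P W' w (SJ T J) ≤
      M ^ W'.card * lw lam W' w * M ^ d * ((d - J.card).factorial *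
        ∑ D with J ⊆ D, nD lam t T D) := by
  have hM0 : 0 ≤ M := by linarith
  have hlw := lw_nonneg hR W' w
  have hq : 0 ≤ ∑ D with J ⊆ D, nD lam t T D := sum_nonneg fun D _ => nD_nonneg hR ht D
  have hR0 : 0 ≤ M ^ W'.card * lw lam W' w * M ^ d * ((d - J.card).factorial *
      ∑ D with J ⊆ D, nD lam t T D) := by positivity
  have hzero : (∀ D : Finset ι, J ⊆ D → T D = 0) →
      (∏ i ∈ J, t i)⁻¹ * pint P W' w (SJ T J) ≤ M ^ W'.card * lw lam W' w * M ^ d *
        ((d - J.card).factorial * ∑ D with J ⊆ D, nD lam t T D) := by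
    intro h0
    have h1 : pint P W' w (SJ T J) = 0 := by
      have h2 : ∀ y, SJ T J y = 0 := by
        intro y
        unfold SJ
        rw [sum_eq_zero fun D hD => by rw [h0 D (mem_filter.mp hD).2]; rfl]; ring
      unfold pint
      exact sum_eq_zero fun y _ => by rw [h2 y]; simp
    rw [h1, mul_zero]
    exact hR0
  by_cases hJd : d < J.card
  · refine hzero fun D hD => hT.deg D (fun hc => ?_)
    have := card_le_card hD
    omega
  by_cases hWJ : Disjoint W' J
  swap
  · refine hzero fun D hD => hT.off D (fun hc => hWJ ?_)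
    exact (disjoint_of_subset_left hD hc).symm
  push Not at hJd
  have hJ1 : 1 ≤ J.card := card_pos.mpr hJ
  have hcWJ : (W' ∪ J).card = W'.card + J.card := card_union_of_disjoint hWJ
  have h1 : pint P W' w (SJ T J) ≤ ∑ x, W lam x * (M ^ (W'.card + J.card) * lw lam W' w *
      ((d - J.card).factorial * M ^ (d - J.card)) * nrm lam t (pinF T J x)) := by
    rw [pint_pin h hR hI (by omega) hWJ w (SJ T J)]
    refine sum_le_sum fun x _ => mul_le_mul_of_nonneg_left ?_ (W_nonneg hR.nonneg x)
    have h2 : pint P (W' ∪ J) (W'.piecewise w x) (SJ T J) =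
        pint P (W' ∪ J) (W'.piecewise w x) (SQ (pinF T J x)) := by
      refine pint_congr _ _ fun y hy => ?_
      unfold SJ SQ
      rw [sum_pinF J T x y]
      intro i hi
      have h3 := hy i (mem_union_right _ hi)
      have h4 : i ∉ W' := fun hc => disjoint_left.mp hWJ hc hi
      simpa [h4] using h3
    rw [h2]
    have h5 := ih (d - J.card) (by omega) (W' ∪ J) (W'.piecewise w x) (pinF T J x)
      (by rw [hcWJ]; omega) (fam_pin hT x)
    rw [hcWJ, lw_union hWJ] at h5
    have hn := nrm_nonneg (T := pinF T J x) hR ht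
    by_cases h0 : lw lam J x = 0
    · rw [h0, inv_zero, zero_mul]
      positivity
    · have h6 : 0 < lw lam J x := lt_of_le_of_ne (lw_nonneg hR J x) (Ne.symm h0)
      calc (lw lam J x)⁻¹ * pint P (W' ∪ J) (W'.piecewise w x) (SQ (pinF T J x)) ≤
            (lw lam J x)⁻¹ * (M ^ (W'.card + J.card) * (lw lam W' w * lw lam J x) *
            ((d - J.card).factorial * M ^ (d - J.card)) * nrm lam t (pinF T J x)) :=
            mul_le_mul_of_nonneg_left h5 (inv_nonneg.mpr h6.le)
        _ = _ := by field_simp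
  have h6 : ∑ x, W lam x * (M ^ (W'.card + J.card) * lw lam W' w *
      ((d - J.card).factorial * M ^ (d - J.card)) * nrm lam t (pinF T J x)) =
      M ^ W'.card * lw lam W' w * M ^ d * ((d - J.card).factorial *
        ((∏ i ∈ J, t i) * ∑ D with J ⊆ D, nD lam t T D)) := by
    rw [← nrm_pin hR ht J, mul_sum, mul_sum]
    refine sum_congr rfl fun x _ => ?_
    have : M ^ d = M ^ J.card * M ^ (d - J.card) := by rw [← pow_add]; congr 1; omega
    rw [this, pow_add]
    ring
  rw [h6] at h1
  have h7 : 0 < ∏ i ∈ J, t i := prod_pos fun i _ => ht i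
  calc (∏ i ∈ J, t i)⁻¹ * pint P W' w (SJ T J) ≤ (∏ i ∈ J, t i)⁻¹ *
        (M ^ W'.card * lw lam W' w * M ^ d * ((d - J.card).factorial *
        ((∏ i ∈ J, t i) * ∑ D with J ⊆ D, nD lam t T D))) :=
        mul_le_mul_of_nonneg_left h1 (inv_nonneg.mpr h7.le)
    _ = _ := by field_simp

/-- Weighted count of the nonempty `J`. -/
lemma sum_fact_nD {L : ℝ} (hR : Ref lam L) {t : ι → ℝ} (ht : ∀ i, 0 < t i)
    (hdeg : ∀ D : Finset ι, D.card ≠ d → T D = 0) :
    ∑ J with J.Nonempty, ((d - J.card).factorial : ℝ) *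
      ∑ D with J ⊆ D, nD lam t T D ≤ 2 * d.factorial * nrm lam t T := by
  have h1 : ∑ J : Finset ι with J.Nonempty, ((d - J.card).factorial : ℝ) *
      ∑ D with J ⊆ D, nD lam t T D =
      ∑ D, nD lam t T D * ∑ J ∈ D.powerset.filter (·.Nonempty), ((d - J.card).factorial : ℝ) := by
    simp only [mul_sum]
    rw [sum_comm' (s' := fun D : Finset ι => D.powerset.filter (·.Nonempty)) (t' := univ)]
    · refine sum_congr rfl fun D _ => sum_congr rfl fun J _ => mul_comm _ _
    · intro J D
      simp only [mem_filter, mem_univ, true_and, mem_powerset, and_true]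
      exact and_comm
  rw [h1, nrm_eq, mul_sum]
  refine sum_le_sum fun D _ => ?_
  have hD0 := nD_nonneg (T := T) hR ht D
  by_cases hD : D.card = d
  · have h2 := sum_sub_fact D
    rw [hD] at h2
    calc nD lam t T D * ∑ J ∈ D.powerset.filter (·.Nonempty), ((d - J.card).factorial : ℝ)
        ≤ nD lam t T D * (2 * d.factorial) := mul_le_mul_of_nonneg_left h2 hD0
      _ = _ := by ring
  · have : nD lam t T D = 0 := by
      unfold nD
      rw [sum_eq_zero fun x _ => by rw [hdeg D hD]; simp, mul_zero]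
    rw [this]; simp

/-- The sum over all nonempty `J`. -/
lemma key_sum (h : IsLaw P) {M L : ℝ} {D0 : ℕ} {t : ι → ℝ} (hR : Ref lam L) (hI : I1 lam M D0 P)
    (hM : 1 ≤ M) (ht : ∀ i, 0 < t i) (ih : ∀ d' < d, Conc lam t M D0 P d') {W' : Finset ι}
    (w : ∀ i, V i) (hcard : W'.card + d ≤ D0) (hT : IsFam P W' d T) :
    ∑ J with J.Nonempty, (∏ i ∈ J, t i)⁻¹ * pint P W' w (SJ T J) ≤
      M ^ W'.card * lw lam W' w * (2 * ((d.factorial : ℝ) * M ^ d)) * nrm lam t T := by
  have hM0 : 0 ≤ M := by linarith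
  have hlw := lw_nonneg hR W' w
  refine (sum_le_sum fun J hJ => key_J h hR hI hM ht ih w hcard hT (mem_filter.mp hJ).2).trans ?_
  rw [← mul_sum]
  have h1 := sum_fact_nD (T := T) hR ht hT.deg
  have : 0 ≤ M ^ W'.card * lw lam W' w * M ^ d := by positivity
  calc _ ≤ M ^ W'.card * lw lam W' w * M ^ d * (2 * d.factorial * nrm lam t T) :=
        mul_le_mul_of_nonneg_left h1 this
    _ = _ := by ring

lemma fam_empty {W' : Finset ι} (hT : IsFam P W' d T) : IsFam P ∅ d T :=
  ⟨hT.deg, fun D hD => absurd (disjoint_empty_right D) hD, hT.dep, hT.zz⟩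

/-- The level inequality in degree `d`, in the form consumed by the induction. -/
def Lev (lam : ∀ i, V i → ℝ) (t : ι → ℝ) (M c : ℝ) (D0 : ℕ) (P : (∀ i, V i) → ℝ) (d : ℕ) : Prop :=
  ∀ (W' : Finset ι) (w : ∀ i, V i) (T : Finset ι → (∀ i, V i) → ℝ),
    W'.card + d ≤ D0 → IsFam P W' d T →
      pint P W' w (SQ T) ≤ M ^ W'.card * lw lam W' w * (1 / 2 * nrm lam t T) +
        c * ∑ J with J.Nonempty, (∏ i ∈ J, t i)⁻¹ *
          (pint P W' w (SJ T J) + M ^ W'.card * lw lam W' w * pint P ∅ w (SJ T J))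

/-- Near-orthogonality: a family with vanishing partial means is almost orthogonal under every
pinned law. -/
theorem nearOrth_lev (h : IsLaw P) {M L c : ℝ} {D0 : ℕ} {t : ι → ℝ} (hR : Ref lam L)
    (hI : I1 lam M D0 P) (hM : 1 ≤ M) (ht : ∀ i, 0 < t i) (hc0 : 0 ≤ c) (hc : c ≤ 1 / 8)
    (hLev : ∀ d, 1 ≤ d → Lev lam t M c D0 P d) : ∀ d, Conc lam t M D0 P d := by
  intro d
  induction' d using Nat.strong_induction_on with d ih
  intro W' w T hcard hT
  have hM0 : 0 ≤ M := by linarith
  have hnr0 : 0 ≤ nrm lam t T := nrm_nonneg hR ht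
  have hlw := lw_nonneg hR W' w
  have hg := hI W' (by omega) w
  -- degree zero
  rcases Nat.eq_zero_or_pos d with hd | hd
  · subst hd
    have h1 : ∀ y, SQ T y = T ∅ w ^ 2 := by
      intro y
      unfold SQ
      rw [sum_eq_single ∅]
      · rw [hT.dep ∅ (x := y) (y := w) (fun i hi => absurd hi (by simp))]
      · intro D _ hD
        rw [hT.deg D (fun hc => hD (card_eq_zero.mp hc))]
        rfl
      · intro hc; exact absurd (mem_univ _) hc
    have h2 : nrm lam t T = T ∅ w ^ 2 := by
      rw [nrm_eq, sum_eq_single ∅]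
      · unfold nD
        have : ∀ x, W lam x * T ∅ x ^ 2 = W lam x * T ∅ w ^ 2 := by
          intro x
          rw [hT.dep ∅ (x := x) (y := w) (fun i hi => absurd hi (by simp))]
        rw [sum_congr rfl fun x _ => this x, ← sum_mul, sum_W hR.sum_one]
        simp
      · intro D _ hD
        have hD' : D.card ≠ 0 := fun hc => hD (card_eq_zero.mp hc)
        unfold nD
        rw [sum_eq_zero fun x _ => by rw [hT.deg D hD']; simp, mul_zero]
      · intro hc; exact absurd (mem_univ _) hc
    have h3 : pint P W' w (SQ T) = marg P W' w * T ∅ w ^ 2 := by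
      rw [← pint_const]
      exact pint_congr _ _ fun y _ => h1 y
    rw [h2, h3]
    have h5 : 0 ≤ T ∅ w ^ 2 := sq_nonneg _
    simp only [Nat.factorial_zero, Nat.cast_one, pow_zero, mul_one]
    exact mul_le_mul_of_nonneg_right hg h5
  have hL := hLev d hd W' w T hcard hT
  have k1 := key_sum h hR hI hM ht ih w hcard hT
  have k2 := key_sum h hR hI hM ht ih w (W' := ∅) (by rw [card_empty]; omega) (fam_empty hT)
  have hlw0 : lw lam (∅ : Finset ι) w = 1 := by unfold lw; simp
  rw [card_empty, pow_zero, one_mul, hlw0, one_mul] at k2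
  have e1 : ∑ J with J.Nonempty, (∏ i ∈ J, t i)⁻¹ *
      (pint P W' w (SJ T J) + M ^ W'.card * lw lam W' w * pint P ∅ w (SJ T J)) =
      ∑ J with J.Nonempty, (∏ i ∈ J, t i)⁻¹ * pint P W' w (SJ T J) +
      M ^ W'.card * lw lam W' w * ∑ J with J.Nonempty,
        (∏ i ∈ J, t i)⁻¹ * pint P ∅ w (SJ T J) := by
    rw [mul_sum, ← sum_add_distrib]
    exact sum_congr rfl fun J _ => by ring
  rw [e1] at hL
  have hMW : 0 ≤ M ^ W'.card * lw lam W' w := by positivity
  have hMd : 1 ≤ M ^ d := one_le_pow₀ hM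
  have hfd : (1 : ℝ) ≤ d.factorial := by
    exact_mod_cast Nat.one_le_iff_ne_zero.mpr (Nat.factorial_ne_zero d)
  set R : ℝ := M ^ W'.card * lw lam W' w * ((d.factorial : ℝ) * M ^ d) * nrm lam t T with hRdef
  have hR0 : 0 ≤ R := by rw [hRdef]; positivity
  have a1 : 1 ≤ (d.factorial : ℝ) * M ^ d := one_le_mul_of_one_le_of_one_le hfd hMd
  have a2 : M ^ W'.card * lw lam W' w * (1 / 2 * nrm lam t T) ≤ 1 / 2 * R := by
    rw [hRdef]
    have : 0 ≤ M ^ W'.card * lw lam W' w * nrm lam t T := by positivity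
    calc M ^ W'.card * lw lam W' w * (1 / 2 * nrm lam t T) =
          1 / 2 * (M ^ W'.card * lw lam W' w * nrm lam t T) * 1 := by ring
      _ ≤ 1 / 2 * (M ^ W'.card * lw lam W' w * nrm lam t T) * ((d.factorial : ℝ) * M ^ d) :=
          mul_le_mul_of_nonneg_left a1 (by positivity)
      _ = _ := by ring
  have a3 : ∑ J with J.Nonempty, (∏ i ∈ J, t i)⁻¹ *
      pint P W' w (SJ T J) + M ^ W'.card * lw lam W' w * ∑ J with J.Nonempty,
        (∏ i ∈ J, t i)⁻¹ * pint P ∅ w (SJ T J) ≤ 4 * R := by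
    have := mul_le_mul_of_nonneg_left k2 hMW
    calc _ ≤ M ^ W'.card * lw lam W' w * (2 * ((d.factorial : ℝ) * M ^ d)) * nrm lam t T +
          M ^ W'.card * lw lam W' w * (2 * ((d.factorial : ℝ) * M ^ d) * nrm lam t T) :=
          add_le_add k1 this
      _ = 4 * R := by rw [hRdef]; ring
  have a4 := mul_le_mul_of_nonneg_left a3 hc0
  have a5 : c * (4 * R) ≤ 1 / 8 * (4 * R) := mul_le_mul_of_nonneg_right hc (by positivity)
  linarith

end fam

end Vale.Agent.P042.H678
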