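import Vale.Agent.P042.H678.NO

/-! Block [B]: near-orthogonality from the multi-coordinate entropy inequality, and the test of a
pinned law against a family. -/

set_option autoImplicit false

namespace Vale.Agent.P042.H678

open Finset
open Vale.Agent.P042.H461 Vale.Agent.P042.H416 Vale.Agent.P042.H742
open Vale.Agent.P042.H779 (marg marg_nonneg marg_congr marg_update marg_anti IsProb)

set_option linter.unusedSectionVars false

variable {ι : Type*} [Fintype ι] [DecidableEq ι] {V : ι → Type*} [∀ i, Fintype (V i)]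
  [∀ i, DecidableEq (V i)]
variable {P : (∀ i, V i) → ℝ} {lam : ∀ i, V i → ℝ} {T : Finset ι → (∀ i, V i) → ℝ} {d : ℕ}

/-- The cell of the pins. -/
def cell (W' : Finset ι) (w : ∀ i, V i) : Finset (∀ i, V i) :=
  univ.filter fun y => ∀ i ∈ W', y i = w i

lemma pint_cell (W' : Finset ι) (w : ∀ i, V i) (F : (∀ i, V i) → ℝ) :
    pint P W' w F = ∑ y ∈ cell W' w, P y * F y := by
  unfold cell pint
  rw [sum_filter]

lemma marg_cell (P : (∀ i, V i) → ℝ) (W' : Finset ι) (w : ∀ i, V i) :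
    ∑ y ∈ cell W' w, P y = marg P W' w := by
  unfold cell marg
  rw [sum_filter]

/-- Sup bound of a family on the support of the law. -/
lemma sup_le (h : IsLaw P) {L M : ℝ} {D0 : ℕ} (hR : Ref lam L) (hI : I1 lam M D0 P) {t : ι → ℝ}
    (ht0 : ∀ i, 0 < t i) (ht1 : ∀ i, t i ≤ 1) {W' : Finset ι} (hd : d ≤ D0) (hT : IsFam P W' d T)
    {x : ∀ i, V i} (hx : P x ≠ 0) :
    (∑ D, T D x) ^ 2 ≤ ((Fintype.card ι).choose d * Real.exp (L * d)) * nrm lam t T := by
  have h1 : ∑ D, T D x = ∑ D ∈ univ.powersetCard d, T D x := by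
    refine (sum_subset (subset_univ _) fun D _ hD => ?_).symm
    rw [hT.deg D (fun hc => hD ?_)]
    · rfl
    · rw [mem_powersetCard]
      exact ⟨subset_univ _, hc⟩
  have h2 : ∀ D ∈ (univ : Finset ι).powersetCard d, T D x ^ 2 ≤
      Real.exp (L * d) * nD lam t T D := by
    intro D hD
    have hDc := (mem_powersetCard.mp hD).2
    have hm : ∀ i ∈ D, Real.exp (-L) ≤ lam i (x i) := by
      intro i hi
      rcases hR.atoms i (x i) with h0 | h0
      · exfalso
        refine hx (eq_zero_of_lw h hI (A := D) (by omega) ?_)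
        unfold lw
        exact prod_eq_zero hi h0
      · exact h0
    have h3 : lw lam D x * T D x ^ 2 ≤ ∑ y, W lam y * T D y ^ 2 := by
      rw [← W_match hR D x, sum_mul]
      refine sum_le_sum fun y _ => ?_
      split_ifs with hy
      · rw [hT.dep D (x := y) (y := x) (fun i hi => hy i (mem_coe.mp hi))]
      · rw [zero_mul]
        exact mul_nonneg (W_nonneg hR.nonneg y) (sq_nonneg _)
    have h4 : Real.exp (-(L * d)) ≤ lw lam D x := by
      calc Real.exp (-(L * d)) = ∏ _i ∈ D, Real.exp (-L) := by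
            rw [prod_const, hDc, ← Real.exp_nat_mul]; congr 1; ring
        _ ≤ _ := prod_le_prod (fun i _ => (Real.exp_pos _).le) fun i hi => hm i hi
    have h5 : 1 ≤ (∏ i ∈ D, t i)⁻¹ := by
      rw [one_le_inv₀ (prod_pos fun i _ => ht0 i)]
      exact prod_le_one (fun i _ => (ht0 i).le) fun i _ => ht1 i
    have h6 : 0 ≤ ∑ y, W lam y * T D y ^ 2 :=
      sum_nonneg fun y _ => mul_nonneg (W_nonneg hR.nonneg y) (sq_nonneg _)
    have h7 : Real.exp (-(L * d)) * T D x ^ 2 ≤ nD lam t T D := by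
      unfold nD
      calc Real.exp (-(L * d)) * T D x ^ 2 ≤ lw lam D x * T D x ^ 2 :=
            mul_le_mul_of_nonneg_right h4 (sq_nonneg _)
        _ ≤ ∑ y, W lam y * T D y ^ 2 := h3
        _ ≤ (∏ i ∈ D, t i)⁻¹ * ∑ y, W lam y * T D y ^ 2 := le_mul_of_one_le_left h6 h5
    calc T D x ^ 2 = Real.exp (L * d) * (Real.exp (-(L * d)) * T D x ^ 2) := by
          rw [← mul_assoc, ← Real.exp_add]; simp
      _ ≤ _ := mul_le_mul_of_nonneg_left h7 (Real.exp_pos _).le
  rw [h1]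
  have h3 := sq_sum_le_card_mul_sum_sq (s := (univ : Finset ι).powersetCard d) (f := fun D => T D x)
  rw [card_powersetCard, card_univ] at h3
  refine h3.trans ?_
  have h4 : ∑ D ∈ (univ : Finset ι).powersetCard d, T D x ^ 2 ≤
      Real.exp (L * d) * nrm lam t T := by
    refine (sum_le_sum h2).trans ?_
    rw [← mul_sum]
    refine mul_le_mul_of_nonneg_left ?_ (Real.exp_pos _).le
    rw [nrm_eq]
    exact sum_le_sum_of_subset_of_nonneg (subset_univ _) fun D _ _ => nD_nonneg hR ht0 D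
  calc _ ≤ ((Fintype.card ι).choose d : ℝ) * (Real.exp (L * d) * nrm lam t T) :=
        mul_le_mul_of_nonneg_left h4 (Nat.cast_nonneg _)
    _ = _ := by ring

lemma fam_mean {W' : Finset ι} (hT : IsFam P W' d T) (hd : 1 ≤ d) (w : ∀ i, V i) :
    ∑ x, P x * ∑ D, T D x = 0 := by
  have h1 := hT.zz ∅ (by rw [card_empty]; omega) w
  rw [filter_empty_sub, sum_comm] at h1
  rw [← h1]
  refine sum_congr rfl fun x _ => ?_
  rw [mul_sum]
  refine sum_congr rfl fun D _ => ?_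
  congr 2

lemma AJ'_le {t : ι → ℝ} (ht0 : ∀ i, 0 < t i) (ht1 : ∀ i, t i ≤ 1)
    (T : Finset ι → (∀ i, V i) → ℝ) (y : ∀ i, V i) :
    AJ' t T y ≤ ∑ J with J.Nonempty, (∏ i ∈ J, t i)⁻¹ * SJ T J y := by
  unfold AJ'
  refine sum_le_sum fun J _ => mul_le_mul_of_nonneg_right ?_ (sq_nonneg _)
  rw [← prod_inv_distrib]
  refine prod_le_prod (fun i _ => ?_) fun i _ => ?_
  · rw [sub_nonneg, le_div_iff₀ (ht0 i)]; linarith [ht1 i]
  · rw [one_div]; linarith

lemma pint_AJ'_le (h : IsLaw P) {t : ι → ℝ} (ht0 : ∀ i, 0 < t i) (ht1 : ∀ i, t i ≤ 1)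
    (T : Finset ι → (∀ i, V i) → ℝ) (W' : Finset ι) (w : ∀ i, V i) :
    pint P W' w (AJ' t T) ≤ ∑ J with J.Nonempty, (∏ i ∈ J, t i)⁻¹ * pint P W' w (SJ T J) := by
  rw [← pint_sum]
  exact pint_mono h W' w fun y _ => AJ'_le ht0 ht1 T y

/-- The level inequality from the multi-coordinate entropy inequality. -/
theorem lev_of_mei (h : IsLaw P) {M Λ L ε κ δ : ℝ} {D0 : ℕ} {t : ι → ℝ} (hR : Ref lam L)
    (hI : I1 lam M D0 P) (hM : 1 ≤ M)
    (ht0 : ∀ i, 0 < t i) (ht1 : ∀ i, t i ≤ 1) (hε : 0 ≤ ε) (hκ : 0 ≤ κ) (hL : 0 ≤ L) (hΛ0 : 0 ≤ Λ)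
    (hΛ : ∀ d ≤ D0, 12 * ((Fintype.card ι).choose d * Real.exp (L * d)) ≤ Real.exp Λ)
    (hmei : MEIr t ε κ δ P) (hδ : δ ≤ Real.exp (-(2 * Λ + L * D0)))
    (hs : 176 * ε * (2 * Λ + κ + L * D0) ≤ 1) :
    ∀ d, 1 ≤ d → Lev lam t M (1 / 8) D0 P d := by
  intro d hd W' w T hcard hT
  have hM0 : 0 ≤ M := by linarith
  have hnr0 : 0 ≤ nrm lam t T := nrm_nonneg hR ht0
  have hdb : d ≤ D0 := by omega
  have hg := hI W' (by omega) w
  have hmg0 : 0 ≤ marg P W' w := marg_nonneg (lawProb h) W' w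
  have hlw := lw_nonneg hR W' w
  have hMW : 0 ≤ M ^ W'.card * lw lam W' w := by positivity
  have hMW1 : lw lam W' w ≤ M ^ W'.card * lw lam W' w :=
    le_mul_of_one_le_left hlw (one_le_pow₀ hM)
  set Bq : ℝ := ((Fintype.card ι).choose d * Real.exp (L * d)) * nrm lam t T with hBq
  have hBq0 : 0 ≤ Bq := by rw [hBq]; positivity
  have hBq1 : 12 * (Real.exp (-Λ) * Bq) ≤ nrm lam t T := by
    have h1 := hΛ d hdb
    have h2 : Real.exp (-Λ) * (12 * ((Fintype.card ι).choose d * Real.exp (L * d))) ≤ 1 := by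
      calc _ ≤ Real.exp (-Λ) * Real.exp Λ := mul_le_mul_of_nonneg_left h1 (Real.exp_pos _).le
        _ = 1 := by rw [← Real.exp_add]; simp
    calc 12 * (Real.exp (-Λ) * Bq) =
          (Real.exp (-Λ) * (12 * ((Fintype.card ι).choose d * Real.exp (L * d)))) * nrm lam t T := by
          rw [hBq]; ring
      _ ≤ 1 * nrm lam t T := mul_le_mul_of_nonneg_right h2 hnr0
      _ = _ := one_mul _
  have hpos2 : 0 ≤ ∑ J with J.Nonempty, (∏ i ∈ J, t i)⁻¹ *
      (pint P W' w (SJ T J) + M ^ W'.card * lw lam W' w * pint P ∅ w (SJ T J)) := by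
    refine sum_nonneg fun J _ => mul_nonneg (inv_nonneg.mpr (prod_nonneg fun i _ => (ht0 i).le)) ?_
    have := pint_SJ_nonneg (T := T) h W' w J
    have := pint_SJ_nonneg (T := T) h ∅ w J
    positivity
  have hsup : ∀ y, P y ≠ 0 → SQ T y ≤ Bq := fun y hy => sup_le h hR hI ht0 ht1 hdb hT hy
  have hAnn : 0 ≤ Real.exp (-Λ) * Bq := by positivity
  by_cases hsm : marg P W' w ≤ Real.exp (-Λ) * lw lam W' w
  · have h1 : pint P W' w (SQ T) ≤ marg P W' w * Bq := by
      rw [← pint_const]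
      exact pint_mono h W' w hsup
    have h2 : marg P W' w * Bq ≤ Real.exp (-Λ) * lw lam W' w * Bq :=
      mul_le_mul_of_nonneg_right hsm hBq0
    have h3 : Real.exp (-Λ) * lw lam W' w * Bq ≤ M ^ W'.card * lw lam W' w * (1 / 2 * nrm lam t T) := by
      calc Real.exp (-Λ) * lw lam W' w * Bq = lw lam W' w * (Real.exp (-Λ) * Bq) := by ring
        _ ≤ M ^ W'.card * lw lam W' w * (1 / 2 * nrm lam t T) :=
            mul_le_mul hMW1 (by linarith) hAnn hMW
    have h5 : 0 ≤ 1 / 8 * ∑ J with J.Nonempty, (∏ i ∈ J, t i)⁻¹ *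
      (pint P W' w (SJ T J) + M ^ W'.card * lw lam W' w * pint P ∅ w (SJ T J)) := by positivity
    linarith
  push Not at hsm
  have hmpos0 : 0 < marg P W' w := lt_of_le_of_lt (by positivity) hsm
  have hlwpos : 0 < lw lam W' w := by
    rcases hlw.eq_or_lt with h0 | h0
    · rw [← h0, mul_zero] at hg
      exact absurd hmpos0 (not_lt.mpr hg)
    · exact h0
  have hprod : Real.exp (-(L * W'.card)) ≤ lw lam W' w := by
    unfold lw
    calc Real.exp (-(L * W'.card)) = ∏ _i ∈ W', Real.exp (-L) := by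
          rw [prod_const, ← Real.exp_nat_mul]; congr 1; ring
      _ ≤ _ := prod_le_prod (fun i _ => (Real.exp_pos _).le) fun i hi => by
          rcases hR.atoms i (w i) with h0 | h0
          · exfalso
            refine hlwpos.ne' ?_
            unfold lw
            exact prod_eq_zero hi h0
          · exact h0
  have hWb : (W'.card : ℝ) ≤ D0 := by exact_mod_cast (by omega : W'.card ≤ D0)
  have hLW : L * W'.card ≤ L * D0 := mul_le_mul_of_nonneg_left hWb hL
  have hm1 : Real.exp (-(Λ + L * D0)) ≤ marg P W' w := by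
    calc Real.exp (-(Λ + L * D0)) ≤ Real.exp (-Λ) * Real.exp (-(L * W'.card)) := by
          rw [← Real.exp_add]; exact Real.exp_le_exp.mpr (by linarith)
      _ ≤ Real.exp (-Λ) * lw lam W' w := mul_le_mul_of_nonneg_left hprod (Real.exp_pos _).le
      _ ≤ _ := hsm.le
  have hmpos : 0 < marg P W' w := lt_of_lt_of_le (Real.exp_pos _) hm1
  set K := Λ + L * D0 with hK
  have hKb : -Real.log (∑ x ∈ cell W' w, P x) ≤ K := by
    rw [marg_cell]
    have := (Real.le_log_iff_exp_le hmpos).mpr hm1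
    linarith
  have hδ2 : δ ≤ Real.exp (-Λ) * ∑ x ∈ cell W' w, P x := by
    rw [marg_cell]
    calc δ ≤ Real.exp (-(2 * Λ + L * D0)) := hδ
      _ = Real.exp (-Λ) * Real.exp (-(Λ + L * D0)) := by rw [← Real.exp_add]; congr 1; ring
      _ ≤ _ := mul_le_mul_of_nonneg_left hm1 (Real.exp_pos _).le
  have hs1 : 176 * (ε * (Λ + κ + K)) ≤ 1 := by
    have : 176 * (ε * (Λ + κ + K)) = 176 * ε * (2 * Λ + κ + L * D0) := by rw [hK]; ring
    rw [this]; exact hs
  have hB : ∀ x, P x ≠ 0 → |∑ D, T D x| ≤ Real.sqrt Bq := fun x hx => Real.abs_le_sqrt (hsup x hx)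
  have hlev := level_pin ht0 ht1 hε hκ h hmei T hT.dep
    (fam_mean hT hd w) hB (cell W' w) (by rw [marg_cell]; exact hmpos) hΛ0 hKb hδ2 (by linarith)
  rw [marg_cell P, Real.sq_sqrt hBq0] at hlev
  have hlev2 : pint P W' w (SQ T) ≤ marg P W' w * (6 * Real.exp (-Λ) * Bq) +
      22 * ε * (Λ + κ + K) * (pint P W' w (AJ' t T) + marg P W' w * ∑ x, P x * AJ' t T x) := by
    rw [pint_cell, pint_cell]
    exact hlev
  have hAJ0 : ∀ (W' : Finset ι), 0 ≤ pint P W' w (AJ' t T) := fun W' =>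
    pint_nonneg h W' w fun y => AJ'_nonneg ht0 ht1 T y
  have h6 : marg P W' w * (6 * Real.exp (-Λ) * Bq) ≤
      M ^ W'.card * lw lam W' w * (1 / 2 * nrm lam t T) :=
    mul_le_mul hg (by linarith) (by positivity) hMW
  have h7 : pint P W' w (AJ' t T) + marg P W' w * ∑ x, P x * AJ' t T x ≤
      ∑ J with J.Nonempty, (∏ i ∈ J, t i)⁻¹ *
        (pint P W' w (SJ T J) + M ^ W'.card * lw lam W' w * pint P ∅ w (SJ T J)) := by
    have e1 : ∑ J with J.Nonempty, (∏ i ∈ J, t i)⁻¹ *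
        (pint P W' w (SJ T J) + M ^ W'.card * lw lam W' w * pint P ∅ w (SJ T J)) =
        ∑ J with J.Nonempty, (∏ i ∈ J, t i)⁻¹ * pint P W' w (SJ T J) +
        M ^ W'.card * lw lam W' w * ∑ J with J.Nonempty,
          (∏ i ∈ J, t i)⁻¹ * pint P ∅ w (SJ T J) := by
      rw [mul_sum, ← sum_add_distrib]
      exact sum_congr rfl fun J _ => by ring
    rw [e1, ← pint_empty (P := P) w]
    exact add_le_add (pint_AJ'_le h ht0 ht1 T W' w)
      (mul_le_mul hg (pint_AJ'_le h ht0 ht1 T ∅ w) (hAJ0 ∅) hMW)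
  have h8 : 0 ≤ pint P W' w (AJ' t T) + marg P W' w * ∑ x, P x * AJ' t T x := by
    rw [← pint_empty (P := P) w]
    have := hAJ0 W'
    have := hAJ0 ∅
    positivity
  have h9 : 22 * ε * (Λ + κ + K) * (pint P W' w (AJ' t T) +
      marg P W' w * ∑ x, P x * AJ' t T x) ≤
      1 / 8 * ∑ J with J.Nonempty, (∏ i ∈ J, t i)⁻¹ *
        (pint P W' w (SJ T J) + M ^ W'.card * lw lam W' w * pint P ∅ w (SJ T J)) :=
    mul_le_mul (by linarith) h7 h8 (by norm_num)
  linarith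

/-- **Near-orthogonality from the multi-coordinate entropy inequality**, general constants. -/
theorem near_orth' (h : IsLaw P) {M Λ L ε κ δ : ℝ} {D0 : ℕ} {t : ι → ℝ} (hR : Ref lam L)
    (hI : I1 lam M D0 P) (hM : 1 ≤ M)
    (ht0 : ∀ i, 0 < t i) (ht1 : ∀ i, t i ≤ 1) (hε : 0 ≤ ε) (hκ : 0 ≤ κ) (hL : 0 ≤ L) (hΛ0 : 0 ≤ Λ)
    (hΛ : ∀ d ≤ D0, 12 * ((Fintype.card ι).choose d * Real.exp (L * d)) ≤ Real.exp Λ)
    (hmei : MEIr t ε κ δ P) (hδ : δ ≤ Real.exp (-(2 * Λ + L * D0)))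
    (hs : 176 * ε * (2 * Λ + κ + L * D0) ≤ 1) : NearOrth lam t M D0 P := by
  intro d W' w T hcard hT
  exact nearOrth_lev h hR hI hM ht0 (by norm_num) le_rfl
    (lev_of_mei h hR hI hM ht0 ht1 hε hκ hL hΛ0 hΛ hmei hδ hs) d W' w T hcard hT

lemma choose_exp_le {n D0 d : ℕ} (hd : d ≤ D0) {L Λ : ℝ} (hL : 0 ≤ L)
    (hΛ : D0 * (L + Real.log n) + 3 ≤ Λ) :
    12 * ((n.choose d : ℝ) * Real.exp (L * d)) ≤ Real.exp Λ := by
  have h3 : (12 : ℝ) ≤ Real.exp 3 := by
    have h1 : (2.7 : ℝ) ≤ Real.exp 1 := by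
      have := Real.exp_one_gt_d9; linarith
    have h2 : Real.exp 3 = Real.exp 1 ^ 3 := by rw [← Real.exp_nat_mul]; norm_num
    rw [h2]
    calc (12 : ℝ) ≤ 2.7 ^ 3 := by norm_num
      _ ≤ _ := pow_le_pow_left₀ (by norm_num) h1 3
  have hlog : 0 ≤ Real.log n := Real.log_natCast_nonneg n
  have hdD : (d : ℝ) ≤ D0 := by exact_mod_cast hd
  have h4 : (n.choose d : ℝ) ≤ Real.exp (D0 * Real.log n) := by
    rcases Nat.eq_zero_or_pos n with hn | hn
    · subst hn
      have : (Nat.choose 0 d : ℝ) ≤ 1 := by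
        rcases d with _ | d
        · simp
        · simp
      refine this.trans (Real.one_le_exp (by positivity))
    · have hn' : (0 : ℝ) < n := by exact_mod_cast hn
      calc (n.choose d : ℝ) ≤ (n : ℝ) ^ d := by exact_mod_cast Nat.choose_le_pow n d
        _ = Real.exp (d * Real.log n) := by
            rw [mul_comm, Real.exp_mul, Real.exp_log hn', Real.rpow_natCast]
        _ ≤ _ := Real.exp_le_exp.mpr (mul_le_mul_of_nonneg_right hdD hlog)
  have h5 : Real.exp (L * d) ≤ Real.exp (D0 * L) :=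
    Real.exp_le_exp.mpr (by rw [mul_comm]; exact mul_le_mul_of_nonneg_right hdD hL)
  calc 12 * ((n.choose d : ℝ) * Real.exp (L * d)) ≤
        Real.exp 3 * (Real.exp (D0 * Real.log n) * Real.exp (D0 * L)) := by gcongr
    _ = Real.exp (D0 * (L + Real.log n) + 3) := by
        rw [← Real.exp_add, ← Real.exp_add]; congr 1; ring
    _ ≤ _ := Real.exp_le_exp.mpr hΛ

/-- **Near-orthogonality from the multi-coordinate entropy inequality.** -/
theorem near_orth (h : IsLaw P) {M Λ L ε κ δ : ℝ} {D0 : ℕ} {t : ι → ℝ} (hR : Ref lam L)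
    (hI : I1 lam M D0 P) (hM : 1 ≤ M)
    (ht0 : ∀ i, 0 < t i) (ht1 : ∀ i, t i ≤ 1) (hε : 0 ≤ ε) (hκ : 0 ≤ κ) (hL : 0 ≤ L)
    (hΛ : D0 * (L + Real.log (Fintype.card ι)) + 3 ≤ Λ)
    (hmei : MEIr t ε κ δ P) (hδ : δ ≤ Real.exp (-(3 * Λ)))
    (hs : 176 * ε * (κ + 3 * Λ) ≤ 1) : NearOrth lam t M D0 P := by
  have hlog : 0 ≤ Real.log (Fintype.card ι) := Real.log_natCast_nonneg _
  have h1 : (D0 : ℝ) * (L + Real.log (Fintype.card ι)) = D0 * L + D0 * Real.log (Fintype.card ι) := by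
    ring
  have h2 : 0 ≤ (D0 : ℝ) * Real.log (Fintype.card ι) := by positivity
  have h3 : 0 ≤ (D0 : ℝ) * L := by positivity
  have h4 : L * D0 ≤ Λ := by rw [mul_comm]; linarith
  refine near_orth' h hR hI hM ht0 ht1 hε hκ hL (by linarith)
    (fun d hd => choose_exp_le hd hL hΛ) hmei (hδ.trans (Real.exp_le_exp.mpr (by linarith))) ?_
  refine le_trans ?_ hs
  exact mul_le_mul_of_nonneg_left (by linarith) (by positivity)

end Vale.Agent.P042.H678
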