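import Vale.Agent.P042.H678.NOLev

/-! Block [B]: testing a pinned law against a family with vanishing partial means. -/

set_option autoImplicit false

namespace Vale.Agent.P042.H678

open Finset
open Vale.Agent.P042.H461 Vale.Agent.P042.H416 Vale.Agent.P042.H742
open Vale.Agent.P042.H779 (marg marg_nonneg marg_congr marg_update marg_anti IsProb)

set_option linter.unusedSectionVars false

variable {ι : Type*} [Fintype ι] [DecidableEq ι] {V : ι → Type*} [∀ i, Fintype (V i)]
  [∀ i, DecidableEq (V i)]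
variable {P : (∀ i, V i) → ℝ} {lam : ∀ i, V i → ℝ} {T : Finset ι → (∀ i, V i) → ℝ} {d : ℕ}

/-- Testing any law against a family, through Bernoulli sets of coordinates. -/
theorem test_bern {t : ι → ℝ} (ht0 : ∀ i, 0 < t i) (ht1 : ∀ i, t i ≤ 1)
    {mu nu : (∀ i, V i) → ℝ} (hmu : IsLaw mu) (hnu : IsLaw nu) (hac : AC nu mu)
    (T : Finset ι → (∀ i, V i) → ℝ) (hdep : ∀ D, DependsOn (T D) (D : Set ι))
    {K : ℝ} (hK : ∑ R : Finset ι, bw t R * KL (push (rst R) nu) (push (rst R) mu) ≤ K) :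
    (∑ x, nu x * ∑ D, T D x - ∑ x, mu x * ∑ D, T D x) ^ 2 ≤
      2 * K * (∑ x, nu x * AJ t T x + ∑ x, mu x * AJ t T x) := by
  classical
  obtain ⟨x0⟩ : Nonempty (∀ i, V i) := by
    by_contra hc
    rw [not_nonempty_iff] at hc
    have := hmu.2
    simp at this
  have ht : ∀ i, t i ≠ 0 := fun i => (ht0 i).ne'
  have htD : ∀ D : Finset ι, ∏ i ∈ D, t i ≠ 0 := fun D => Finset.prod_ne_zero_iff.2 fun i _ => ht i
  have hw0 : ∀ R, 0 ≤ bw t R := bw_nonneg (fun i => (ht0 i).le) ht1
  set F : ∀ R : Finset ι, (∀ i : {i // i ∈ R}, V i) → ℝ := fun R y =>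
    ∑ D ∈ R.powerset, (∏ i ∈ D, t i)⁻¹ *
      T D (fun i => if h : i ∈ R then y ⟨i, h⟩ else x0 i) with hF
  have hFx : ∀ (R : Finset ι) (x : ∀ i, V i),
      F R (rst R x) = ∑ D ∈ R.powerset, (∏ i ∈ D, t i)⁻¹ * T D x := by
    intro R x
    rw [hF]
    beta_reduce
    refine Finset.sum_congr rfl fun D hD => congrArg (fun z => (∏ i ∈ D, t i)⁻¹ * z) ?_
    refine hdep D fun i hi => ?_
    have hiR : i ∈ R := (Finset.mem_powerset.1 hD) hi
    simp only [hiR, dif_pos, rst]
  have hΨ : ∀ x, ∑ D, T D x = ∑ R, bw t R * F R (rst R x) := by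
    intro x
    have h1 : ∀ R : Finset ι, bw t R * F R (rst R x) =
        ∑ D, (∏ i ∈ D, t i)⁻¹ * T D x * (if D ⊆ R then bw t R else 0) := by
      intro R
      rw [hFx, ← Finset.sum_filter_add_sum_filter_not univ (fun D => D ⊆ R)]
      have h2 : ∑ D with ¬ D ⊆ R, (∏ i ∈ D, t i)⁻¹ * T D x * (if D ⊆ R then bw t R else 0) = 0 :=
        Finset.sum_eq_zero fun D hD => by rw [if_neg (Finset.mem_filter.1 hD).2, mul_zero]
      have h3 : (univ.filter fun D : Finset ι => D ⊆ R) = R.powerset := by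
        ext D
        simp
      rw [h2, add_zero, h3, Finset.mul_sum]
      refine Finset.sum_congr rfl fun D hD => ?_
      rw [if_pos (Finset.mem_powerset.1 hD)]
      ring
    rw [Finset.sum_congr rfl fun R _ => h1 R, Finset.sum_comm]
    refine Finset.sum_congr rfl fun D _ => ?_
    rw [← Finset.mul_sum, ← Finset.sum_filter, sum_bw_superset]
    have := htD D
    field_simp
  have hA : ∀ x, ∑ R, bw t R * F R (rst R x) ^ 2 = AJ t T x := by
    intro x
    have h1 := sub_gen ht (fun D => (∏ i ∈ D, t i)⁻¹ * T D x)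
    have h2 : ∀ R : Finset ι, bw t R * F R (rst R x) ^ 2 =
        bw t R * (∑ D ∈ R.powerset, (∏ i ∈ D, t i)⁻¹ * T D x) ^ 2 := by
      intro R
      rw [hFx]
    rw [Finset.sum_congr rfl fun R _ => h2 R, h1]
    unfold AJ
    refine Finset.sum_congr rfl fun J _ => ?_
    congr 2
    refine Finset.sum_congr rfl fun D _ => ?_
    rw [← mul_assoc, mul_inv_cancel₀ (htD D), one_mul]
  have h := mei_test (X := ∀ i, V i) hw0 (fun R => rst R) F hnu hmu hac hK
  have e1 : ∀ la : (∀ i, V i) → ℝ, ∑ R, bw t R * ∑ x, la x * F R (rst R x) =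
      ∑ x, la x * ∑ D, T D x := by
    intro la
    have h1 : ∀ R, bw t R * ∑ x, la x * F R (rst R x) =
        ∑ x, la x * (bw t R * F R (rst R x)) := by
      intro R
      rw [Finset.mul_sum]
      exact Finset.sum_congr rfl fun x _ => by ring
    rw [Finset.sum_congr rfl fun R _ => h1 R, Finset.sum_comm]
    exact Finset.sum_congr rfl fun x _ => by rw [← Finset.mul_sum, ← hΨ]
  have e2 : ∀ la : (∀ i, V i) → ℝ, ∑ R, bw t R * ∑ x, la x * F R (rst R x) ^ 2 =
      ∑ x, la x * AJ t T x := by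
    intro la
    have h1 : ∀ R, bw t R * ∑ x, la x * F R (rst R x) ^ 2 =
        ∑ x, la x * (bw t R * F R (rst R x) ^ 2) := by
      intro R
      rw [Finset.mul_sum]
      exact Finset.sum_congr rfl fun x _ => by ring
    rw [Finset.sum_congr rfl fun R _ => h1 R, Finset.sum_comm]
    exact Finset.sum_congr rfl fun x _ => by rw [← Finset.mul_sum, ← hA]
  have e3 : ∑ R, bw t R * (∑ x, nu x * F R (rst R x) - ∑ x, mu x * F R (rst R x)) =
      ∑ x, nu x * ∑ D, T D x - ∑ x, mu x * ∑ D, T D x := by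
    rw [← e1 nu, ← e1 mu, ← Finset.sum_sub_distrib]
    exact Finset.sum_congr rfl fun R _ => by ring
  have e4 : ∑ R, bw t R * (∑ x, nu x * F R (rst R x) ^ 2 + ∑ x, mu x * F R (rst R x) ^ 2) =
      ∑ x, nu x * AJ t T x + ∑ x, mu x * AJ t T x := by
    rw [← e2 nu, ← e2 mu, ← Finset.sum_add_distrib]
    exact Finset.sum_congr rfl fun R _ => by ring
  rw [e3, e4] at h
  exact h

/-- Energy of a family under a pinned law. -/
lemma pint_AJ_le (h : IsLaw P) {M L : ℝ} {D0 : ℕ} {t : ι → ℝ} (hR : Ref lam L)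
    (hI : I1 lam M D0 P) (hM : 1 ≤ M) (ht0 : ∀ i, 0 < t i)
    (ht1 : ∀ i, t i ≤ 1) (hN : NearOrth lam t M D0 P) {W' : Finset ι} (w : ∀ i, V i)
    (hcard : W'.card + d ≤ D0) (hT : IsFam P W' d T) :
    pint P W' w (AJ t T) ≤
      3 * (M ^ W'.card * lw lam W' w * ((d.factorial : ℝ) * M ^ d) * nrm lam t T) := by
  have h1 : AJ t T = fun y => SQ T y + AJ' t T y := by
    funext y; exact AJ_eq t T y
  rw [h1, pint_add]
  have hC : ∀ d, Conc lam t M D0 P d := fun d W' w T hc hT => hN d W' w T hc hT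
  have h2 := hC d W' w T hcard hT
  have h3 := pint_AJ'_le h ht0 ht1 T W' w
  have h4 := key_sum h hR hI hM ht0 (fun d' _ => hC d') w hcard hT
  have h5 : M ^ W'.card * lw lam W' w * (2 * ((d.factorial : ℝ) * M ^ d)) * nrm lam t T =
      2 * (M ^ W'.card * lw lam W' w * ((d.factorial : ℝ) * M ^ d) * nrm lam t T) := by ring
  linarith

/-- **Testing a pinned law against a family with vanishing partial means.** -/
theorem testing (h : IsLaw P) {M L : ℝ} {D0 : ℕ} {t : ι → ℝ} (hR : Ref lam L)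
    (hI : I1 lam M D0 P) (hM : 1 ≤ M) (ht0 : ∀ i, 0 < t i)
    (ht1 : ∀ i, t i ≤ 1) (hN : NearOrth lam t M D0 P) {W' : Finset ι} {w : ∀ i, V i}
    (hm : 0 < marg P W' w) {K : ℝ}
    (hK : ∑ R : Finset ι, bw t R * KL (push (rst R) (res (cell W' w) P)) (push (rst R) P) ≤ K)
    (hd : 1 ≤ d) (hcard : W'.card + d ≤ D0) (hT : IsFam P W' d T) :
    (pint P W' w (fun y => ∑ D, T D y)) ^ 2 ≤
      12 * K * marg P W' w * (M ^ W'.card * lw lam W' w) * ((d.factorial : ℝ) * M ^ d) *
        nrm lam t T := by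
  have hM0 : 0 ≤ M := by linarith
  have hmc : 0 < ∑ y ∈ cell W' w, P y := by rw [marg_cell]; exact hm
  have hnu := isLaw_res h.1 hmc
  have hac := AC_res (cell W' w) P
  have hK0 : 0 ≤ K := by
    refine le_trans (sum_nonneg fun R _ => mul_nonneg (bw_nonneg (fun i => (ht0 i).le) ht1 R) ?_) hK
    exact (hnu.push (rst R)).KL_nonneg (h.push (rst R)) (hac.push h.1 (rst R))
  have h1 := test_bern ht0 ht1 h hnu hac T hT.dep hK
  have hres : ∀ F : (∀ i, V i) → ℝ,
      ∑ x, res (cell W' w) P x * F x = pint P W' w F / marg P W' w := by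
    intro F
    rw [sum_res, marg_cell P, pint_cell]
  rw [fam_mean hT hd w, sub_zero, hres, hres, ← pint_empty (P := P) w] at h1
  have hg := hI W' (by omega) w
  have h2 := pint_AJ_le h hR hI hM ht0 ht1 hN w hcard hT
  have h3 := pint_AJ_le h hR hI hM ht0 ht1 hN (W' := ∅) w (by rw [card_empty]; omega) (fam_empty hT)
  have hlw0 : lw lam (∅ : Finset ι) w = 1 := by unfold lw; simp
  rw [card_empty, pow_zero, one_mul, hlw0, one_mul] at h3
  have h30 : 0 ≤ pint P ∅ w (AJ t T) := pint_nonneg h ∅ w fun y =>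
    sum_nonneg fun J _ => mul_nonneg (rate_nonneg ht0 ht1 J) (sq_nonneg _)
  have hlw := lw_nonneg hR W' w
  have hMW : 0 ≤ M ^ W'.card * lw lam W' w := by positivity
  set X : ℝ := (d.factorial : ℝ) * M ^ d * nrm lam t T with hX
  have h4 : marg P W' w * pint P ∅ w (AJ t T) ≤ M ^ W'.card * lw lam W' w * (3 * X) :=
    mul_le_mul hg h3 h30 hMW
  have h6 : pint P W' w (AJ t T) + marg P W' w * pint P ∅ w (AJ t T) ≤
      6 * (M ^ W'.card * lw lam W' w * X) := by
    have e : M ^ W'.card * lw lam W' w * ((d.factorial : ℝ) * M ^ d) * nrm lam t T =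
        M ^ W'.card * lw lam W' w * X := by rw [hX]; ring
    rw [e] at h2
    linarith
  have hm2 : 0 ≤ marg P W' w ^ 2 := sq_nonneg _
  have h7 := mul_le_mul_of_nonneg_left h1 hm2
  have hmne : marg P W' w ≠ 0 := hm.ne'
  calc (pint P W' w (fun y => ∑ D, T D y)) ^ 2 =
        marg P W' w ^ 2 * (pint P W' w (fun y => ∑ D, T D y) / marg P W' w) ^ 2 := by
        field_simp
    _ ≤ marg P W' w ^ 2 * (2 * K * (pint P W' w (AJ t T) / marg P W' w +
          pint P ∅ w (AJ t T))) := h7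
    _ = 2 * K * marg P W' w * (pint P W' w (AJ t T) + marg P W' w * pint P ∅ w (AJ t T)) := by
        field_simp
    _ ≤ 2 * K * marg P W' w * (6 * (M ^ W'.card * lw lam W' w * X)) :=
        mul_le_mul_of_nonneg_left h6 (by positivity)
    _ = _ := by rw [hX]; ring

end Vale.Agent.P042.H678
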