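import Vale.Agent.P042.H678.Split

/-! Block [B], Step 4: products over partitions, in `ℓ²`. -/

namespace Vale.Agent.P042.H678

open Finset

set_option linter.unusedSectionVars false

variable {ι : Type*} [Fintype ι] [DecidableEq ι]

/-- The growth in the number of pinned coordinates. -/
noncomputable def nu (A M : ℝ) (j : ℕ) : ℝ := A ^ (2 * j - 1) * M ^ j * (j.factorial : ℝ) ^ 2

/-- The ansatz. -/
noncomputable def ans (A M y : ℝ) (j e : ℕ) : ℝ :=
  Real.sqrt e.factorial * y ^ e / ((e : ℝ) + 1) ^ 2 * nu A M j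

lemma nu_nonneg {A M : ℝ} (hA : 0 ≤ A) (hM : 0 ≤ M) (j : ℕ) : 0 ≤ nu A M j := by
  unfold nu; positivity

lemma ans_nonneg {A M y : ℝ} (hA : 0 ≤ A) (hM : 0 ≤ M) (hy : 0 ≤ y) (j e : ℕ) :
    0 ≤ ans A M y j e := by
  have := nu_nonneg hA hM j
  unfold ans; positivity

/-- Sum over the partitions into two parts, first part containing a marked point. -/
lemma nu_conv {A M : ℝ} (hA : 0 < A) (hM : 0 ≤ M) (j : ℕ) :
    ∑ s ∈ range j, (j.choose s : ℝ) * (nu A M (s + 1) * nu A M (j - s)) ≤
      nu A M (j + 1) / (2 * A) := by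
  have h1 : ∀ s ∈ range j, (j.choose s : ℝ) * (nu A M (s + 1) * nu A M (j - s)) =
      A ^ (2 * j) * M ^ (j + 1) *
        ((j.choose s : ℝ) * ((s + 1).factorial : ℝ) ^ 2 * ((j - s).factorial : ℝ) ^ 2) := by
    intro s hs
    have hs' : s < j := mem_range.mp hs
    obtain ⟨r, rfl⟩ := Nat.exists_eq_add_of_lt hs'
    have e1 : s + r + 1 - s = r + 1 := by omega
    have e2 : 2 * (s + 1) - 1 = 2 * s + 1 := by omega
    have e3 : 2 * (r + 1) - 1 = 2 * r + 1 := by omega
    unfold nu
    rw [e1, e2, e3]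
    ring
  rw [sum_congr rfl h1, ← mul_sum]
  have h2 := choose_fact_sum j
  have e2 : 2 * (j + 1) - 1 = 2 * j + 1 := by omega
  have h3 : nu A M (j + 1) / (2 * A) = A ^ (2 * j) * M ^ (j + 1) * (((j + 1).factorial : ℝ) ^ 2 / 2) := by
    unfold nu
    rw [e2, pow_succ A (2 * j)]
    field_simp
  rw [h3]
  exact mul_le_mul_of_nonneg_left h2 (by positivity)

lemma sqrt_choose_mul {e f : ℕ} (hf : f ≤ e) :
    Real.sqrt (e.choose f) * Real.sqrt f.factorial * Real.sqrt (e - f).factorial =
      Real.sqrt e.factorial := by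
  rw [← Real.sqrt_mul (Nat.cast_nonneg _), ← Real.sqrt_mul (by positivity)]
  congr 1
  exact_mod_cast Nat.choose_mul_factorial_mul_factorial hf

/-- Convolution of two ansatz functions. -/
lemma ans_conv {A M y : ℝ} (hA : 0 ≤ A) (hM : 0 ≤ M) (hy : 0 ≤ y) (j j' e : ℕ) :
    ∑ f ∈ range (e + 1), Real.sqrt (e.choose f) * ans A M y j f * ans A M y j' (e - f) ≤
      8 * (Real.sqrt e.factorial * y ^ e / ((e : ℝ) + 1) ^ 2) * (nu A M j * nu A M j') := by
  have h1 : ∀ f ∈ range (e + 1),
      Real.sqrt (e.choose f) * ans A M y j f * ans A M y j' (e - f) =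
      Real.sqrt e.factorial * y ^ e * (nu A M j * nu A M j') *
        (1 / (((f : ℝ) + 1) ^ 2 * (((e - f : ℕ) : ℝ) + 1) ^ 2)) := by
    intro f hf
    have hf' : f ≤ e := by rw [mem_range] at hf; omega
    have e1 : y ^ e = y ^ f * y ^ (e - f) := by rw [← pow_add]; congr 1; omega
    rw [← sqrt_choose_mul hf', e1]
    unfold ans
    field_simp
  rw [sum_congr rfl h1, ← mul_sum]
  have h2 := conv_inv_sq e
  have h3 : 0 ≤ Real.sqrt e.factorial * y ^ e * (nu A M j * nu A M j') := by
    have := nu_nonneg hA hM j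
    have := nu_nonneg hA hM j'
    positivity
  refine (mul_le_mul_of_nonneg_left h2 h3).trans (le_of_eq ?_)
  ring

/-- The part of the product formula with at least two blocks, first block through `a`. -/
noncomputable def two (α P : Finset ι → Finset ι → ℝ) (J : Finset ι) (a : ι) (E : Finset ι) : ℝ :=
  ∑ A ∈ (J.erase a).ssubsets, ∑ F ∈ E.powerset, α (insert a A) F * P (J.erase a \ A) (E \ F)

/-- Bound of the part with at least two blocks. -/
lemma N2_two_le {α P : Finset ι → Finset ι → ℝ} {A M y : ℝ} (hA : 32 ≤ A) (hM : 0 ≤ M)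
    (hy : 0 ≤ y) {J : Finset ι} {a : ι} (ha : a ∈ J) {e : ℕ}
    (hα : ∀ B : Finset ι, B ⊂ J.erase a → ∀ f ≤ e, N2 (α (insert a B)) f ≤ ans A M y (B.card + 1) f)
    (hP : ∀ B : Finset ι, B ⊂ J.erase a → ∀ f ≤ e,
      N2 (P (J.erase a \ B)) f ≤ 2 * ans A M y (J.erase a \ B).card f) :
    N2 (two α P J a) e ≤ ans A M y J.card e / 4 := by
  have hA0 : 0 < A := by linarith
  set j := (J.erase a).card with hj
  have hJ : J.card = j + 1 := by rw [hj, card_erase_of_mem ha]; have := card_pos.mpr ⟨a, ha⟩; omega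
  have h1 : N2 (two α P J a) e ≤ ∑ B ∈ (J.erase a).ssubsets,
      N2 (fun E => ∑ F ∈ E.powerset, α (insert a B) F * P (J.erase a \ B) (E \ F)) e :=
    N2_sum (J.erase a).ssubsets
      (fun B E => ∑ F ∈ E.powerset, α (insert a B) F * P (J.erase a \ B) (E \ F)) e
  refine h1.trans ?_
  set c : ℝ := 16 * (Real.sqrt e.factorial * y ^ e / ((e : ℝ) + 1) ^ 2) with hc
  have hc0 : 0 ≤ c := by rw [hc]; positivity
  have h2 : ∀ B ∈ (J.erase a).ssubsets,
      N2 (fun E => ∑ F ∈ E.powerset, α (insert a B) F * P (J.erase a \ B) (E \ F)) e ≤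
        c * (nu A M (B.card + 1) * nu A M (j - B.card)) := by
    intro B hB
    rw [mem_ssubsets] at hB
    have hcard : (J.erase a \ B).card = j - B.card := card_sdiff_of_subset hB.1
    refine (N2_conv _ _ e).trans ?_
    have h3 : ∑ f ∈ range (e + 1), Real.sqrt (e.choose f) * N2 (α (insert a B)) f *
        N2 (P (J.erase a \ B)) (e - f) ≤
        ∑ f ∈ range (e + 1), 2 * (Real.sqrt (e.choose f) * ans A M y (B.card + 1) f *
          ans A M y (j - B.card) (e - f)) := by
      refine sum_le_sum fun f hf => ?_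
      have hf' : f ≤ e := by rw [mem_range] at hf; omega
      have h4 := hα B hB f hf'
      have h5 := hP B hB (e - f) (Nat.sub_le _ _)
      rw [hcard] at h5
      have h6 := ans_nonneg (A := A) (M := M) (y := y) hA0.le hM hy (B.card + 1) f
      have h7 := N2_nonneg (P (J.erase a \ B)) (e - f)
      calc Real.sqrt (e.choose f) * N2 (α (insert a B)) f * N2 (P (J.erase a \ B)) (e - f)
          ≤ Real.sqrt (e.choose f) * ans A M y (B.card + 1) f *
            (2 * ans A M y (j - B.card) (e - f)) := by gcongr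
        _ = _ := by ring
    refine h3.trans ?_
    rw [← mul_sum]
    have h8 := ans_conv (A := A) (M := M) (y := y) hA0.le hM hy (B.card + 1) (j - B.card) e
    calc _ ≤ 2 * (8 * (Real.sqrt e.factorial * y ^ e / ((e : ℝ) + 1) ^ 2) *
          (nu A M (B.card + 1) * nu A M (j - B.card))) := mul_le_mul_of_nonneg_left h8 (by norm_num)
      _ = _ := by rw [hc]; ring
  refine (sum_le_sum h2).trans ?_
  rw [← mul_sum]
  have h9 : ∑ B ∈ (J.erase a).ssubsets, nu A M (B.card + 1) * nu A M (j - B.card) ≤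
      ∑ s ∈ range j, (j.choose s : ℝ) * (nu A M (s + 1) * nu A M (j - s)) := by
    have hsub : (J.erase a).ssubsets = (range j).biUnion fun s => (J.erase a).powersetCard s := by
      ext B
      simp only [mem_ssubsets, mem_biUnion, mem_range, mem_powersetCard]
      constructor
      · intro h
        exact ⟨B.card, card_lt_card h, h.1, rfl⟩
      · rintro ⟨s, hs, hB, hB2⟩
        refine ⟨hB, fun hc => ?_⟩
        have := card_le_card hc
        omega
    rw [hsub, sum_biUnion]
    · refine le_of_eq (sum_congr rfl fun s hs => ?_)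
      have : ∀ B ∈ (J.erase a).powersetCard s, nu A M (B.card + 1) * nu A M (j - B.card) =
          nu A M (s + 1) * nu A M (j - s) := by
        intro B hB
        rw [(mem_powersetCard.mp hB).2]
      rw [sum_congr rfl this, sum_const, card_powersetCard, nsmul_eq_mul]
    · intro s _ s' _ hss
      rw [Function.onFun, disjoint_left]
      intro B hB hB'
      exact hss ((mem_powersetCard.mp hB).2.symm.trans (mem_powersetCard.mp hB').2)
  refine (mul_le_mul_of_nonneg_left (h9.trans (nu_conv hA0 hM j)) hc0).trans ?_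
  have h10 := nu_nonneg (A := A) (M := M) hA0.le hM (j + 1)
  rw [hJ]
  unfold ans
  rw [hc]
  have h11 : 0 ≤ Real.sqrt e.factorial * y ^ e / ((e : ℝ) + 1) ^ 2 * nu A M (j + 1) := by positivity
  have h12 : 16 * (Real.sqrt e.factorial * y ^ e / ((e : ℝ) + 1) ^ 2) * (nu A M (j + 1) / (2 * A)) =
      8 / A * (Real.sqrt e.factorial * y ^ e / ((e : ℝ) + 1) ^ 2 * nu A M (j + 1)) := by
    field_simp; ring
  rw [h12]
  have h13 : 8 / A ≤ 1 / 4 := by rw [div_le_div_iff₀ hA0 (by norm_num)]; linarith
  calc _ ≤ 1 / 4 * (Real.sqrt e.factorial * y ^ e / ((e : ℝ) + 1) ^ 2 * nu A M (j + 1)) :=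
        mul_le_mul_of_nonneg_right h13 h11
    _ = _ := by ring

/-- Splitting off the term with one block. -/
lemma prod_split {α P : Finset ι → Finset ι → ℝ} (hα0 : ∀ J E, 0 ≤ α J E)
    (hPe : ∀ E, P ∅ E ≤ if E = ∅ then 1 else 0) {J : Finset ι} {a : ι} (ha : a ∈ J)
    (E : Finset ι) :
    ∑ A ∈ (J.erase a).powerset, ∑ F ∈ E.powerset, α (insert a A) F * P (J.erase a \ A) (E \ F) ≤
      α J E + two α P J a E := by
  have h1 : (J.erase a).powerset = insert (J.erase a) (J.erase a).ssubsets := by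
    ext B
    simp only [mem_powerset, mem_insert, mem_ssubsets]
    constructor
    · intro h
      rcases eq_or_ssubset_of_subset h with h | h
      · exact Or.inl h
      · exact Or.inr h
    · rintro (h | h)
      · rw [h]
      · exact h.1
  rw [h1, sum_insert (by simp)]
  refine add_le_add ?_ le_rfl
  rw [sdiff_self, insert_erase ha]
  calc ∑ F ∈ E.powerset, α J F * P ∅ (E \ F) ≤
        ∑ F ∈ E.powerset, α J F * (if E \ F = ∅ then 1 else 0) :=
        sum_le_sum fun F _ => mul_le_mul_of_nonneg_left (hPe _) (hα0 _ _)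
    _ = ∑ F ∈ E.powerset, if F = E then α J F else 0 := by
        refine sum_congr rfl fun F hF => ?_
        rw [mem_powerset] at hF
        by_cases h : F = E
        · subst h; simp
        · have : E \ F ≠ ∅ := fun h2 => h (subset_antisymm hF (sdiff_eq_empty_iff_subset.mp h2))
          rw [if_neg this, if_neg h, mul_zero]
    _ = α J E := by rw [sum_ite_eq' E.powerset E]; simp
    _ ≤ α J E := le_rfl

/-- Product formula in `ℓ²`: if the connected functions obey the ansatz, the products obey twice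
the ansatz. -/
theorem P_le {α P : Finset ι → Finset ι → ℝ} {A M y : ℝ} (hA : 32 ≤ A) (hM : 0 ≤ M)
    (hy : 0 ≤ y) (hα0 : ∀ J E, 0 ≤ α J E) (hP0 : ∀ J E, 0 ≤ P J E)
    (hPe : ∀ E, P ∅ E ≤ if E = ∅ then 1 else 0)
    (hPr : ∀ J : Finset ι, J.Nonempty → ∃ a ∈ J, ∀ E, P J E ≤
      ∑ A ∈ (J.erase a).powerset, ∑ F ∈ E.powerset, α (insert a A) F * P (J.erase a \ A) (E \ F))
    {N : ℕ} (hK : ∀ J : Finset ι, ∀ e, 1 ≤ J.card → J.card + e ≤ N → N2 (α J) e ≤ ans A M y J.card e) :
    ∀ J : Finset ι, ∀ e, 1 ≤ J.card → J.card + e ≤ N → N2 (P J) e ≤ 2 * ans A M y J.card e := by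
  have hA0 : 0 < A := by linarith
  intro J
  induction' hn : J.card using Nat.strong_induction_on with n ih generalizing J
  intro e h1 h2
  have hne : J.Nonempty := by rw [← card_pos]; omega
  obtain ⟨a, ha, hrec⟩ := hPr J hne
  have h3 : N2 (P J) e ≤ N2 (fun E => α J E + two α P J a E) e := by
    refine N2_mono fun E _ => ?_
    rw [abs_of_nonneg (hP0 _ _)]
    exact (hrec E).trans (prod_split hα0 hPe ha E)
  have h4 := N2_add (α J) (two α P J a) e
  have h5 := hK J e (by omega) (by omega)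
  have hcJ : (J.erase a).card = J.card - 1 := card_erase_of_mem ha
  have h6 : N2 (two α P J a) e ≤ ans A M y J.card e / 4 := by
    refine N2_two_le hA hM hy ha (fun B hB f hf => ?_) (fun B hB f hf => ?_)
    · have hBa : a ∉ B := fun h => by have := hB.1 h; simp at this
      have hcB : (insert a B).card = B.card + 1 := card_insert_of_notMem hBa
      have := card_lt_card hB
      have h7 := hK (insert a B) f (by omega) (by omega)
      rwa [hcB] at h7
    · have h8 := card_lt_card hB
      have h9 : (J.erase a \ B).card = (J.erase a).card - B.card := card_sdiff_of_subset hB.1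
      exact ih (J.erase a \ B).card (by omega) _ rfl f (by omega) (by omega)
  have h7 := ans_nonneg (A := A) (M := M) (y := y) hA0.le hM hy J.card e
  rw [hn] at h5 h6 h7
  linarith

/-- The part with at least two blocks obeys a quarter of the ansatz, one order further. -/
theorem two_le {α P : Finset ι → Finset ι → ℝ} {A M y : ℝ} (hA : 32 ≤ A) (hM : 0 ≤ M)
    (hy : 0 ≤ y) (hα0 : ∀ J E, 0 ≤ α J E) (hP0 : ∀ J E, 0 ≤ P J E)
    (hPe : ∀ E, P ∅ E ≤ if E = ∅ then 1 else 0)
    (hPr : ∀ J : Finset ι, J.Nonempty → ∃ a ∈ J, ∀ E, P J E ≤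
      ∑ A ∈ (J.erase a).powerset, ∑ F ∈ E.powerset, α (insert a A) F * P (J.erase a \ A) (E \ F))
    {N : ℕ} (hK : ∀ J : Finset ι, ∀ e, 1 ≤ J.card → J.card + e ≤ N → N2 (α J) e ≤ ans A M y J.card e)
    {J : Finset ι} {a : ι} (ha : a ∈ J) {e : ℕ} (hJ : J.card + e ≤ N + 1) :
    N2 (two α P J a) e ≤ ans A M y J.card e / 4 := by
  have hcJ : (J.erase a).card = J.card - 1 := card_erase_of_mem ha
  have hJ1 : 1 ≤ J.card := card_pos.mpr ⟨a, ha⟩
  refine N2_two_le hA hM hy ha (fun B hB f hf => ?_) (fun B hB f hf => ?_)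
  · have hBa : a ∉ B := fun h => by have := hB.1 h; simp at this
    have hcB : (insert a B).card = B.card + 1 := card_insert_of_notMem hBa
    have := card_lt_card hB
    have h7 := hK (insert a B) f (by omega) (by omega)
    rwa [hcB] at h7
  · have h8 := card_lt_card hB
    have h9 : (J.erase a \ B).card = (J.erase a).card - B.card := card_sdiff_of_subset hB.1
    exact P_le hA hM hy hα0 hP0 hPe hPr hK _ f (by omega) (by omega)

end Vale.Agent.P042.H678
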