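import Mathlib

/-! Block [B], Step 4: splitting of sets in `ℓ²`, the convolution bound and the factorial bound. -/

namespace Vale.Agent.P042.H678

open Finset

set_option linter.unusedSectionVars false

variable {ι : Type*} [Fintype ι] [DecidableEq ι]

/-- Sum over the pairs `F ⊆ E` with prescribed sizes is at most the sum over all pairs. -/
lemma sum_split_le (φ : Finset ι → Finset ι → ℝ) (hφ : ∀ F G, 0 ≤ φ F G) (f g : ℕ) :
    ∑ E ∈ (univ : Finset ι).powersetCard (f + g), ∑ F ∈ E.powersetCard f, φ F (E \ F) ≤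
      ∑ F ∈ (univ : Finset ι).powersetCard f, ∑ G ∈ (univ : Finset ι).powersetCard g, φ F G := by
  rw [sum_sigma', sum_sigma']
  have hinj : Set.InjOn (fun p : (_ : Finset ι) × Finset ι => (⟨p.2, p.1 \ p.2⟩ : (_ : Finset ι) × Finset ι))
      (((univ : Finset ι).powersetCard (f + g)).sigma fun E => E.powersetCard f) := by
    rintro ⟨E, F⟩ h ⟨E', F'⟩ h' he
    simp only [coe_sigma, Set.mem_sigma_iff, mem_coe, mem_powersetCard] at h h'
    simp only [Sigma.mk.injEq, heq_eq_eq] at he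
    obtain ⟨rfl, h2⟩ := he
    have : E = E' := by
      rw [← sdiff_union_of_subset h.2.1, h2, sdiff_union_of_subset h'.2.1]
    subst this
    rfl
  rw [← sum_image (g := fun p : (_ : Finset ι) × Finset ι => (⟨p.2, p.1 \ p.2⟩ : (_ : Finset ι) × Finset ι))
    (f := fun p : (_ : Finset ι) × Finset ι => φ p.1 p.2) hinj]
  refine sum_le_sum_of_subset_of_nonneg ?_ fun p _ _ => hφ _ _
  intro p hp
  simp only [mem_image, mem_sigma, mem_powersetCard] at hp ⊢
  obtain ⟨⟨E, F⟩, ⟨⟨-, hE⟩, hF, hf⟩, rfl⟩ := hp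
  refine ⟨⟨subset_univ _, hf⟩, subset_univ _, ?_⟩
  simp only at hE hF hf ⊢
  rw [card_sdiff_of_subset hF, hE, hf]
  omega

/-- The splitting lemma: one convolution of two set functions costs a binomial coefficient. -/
lemma split_sq (a b : Finset ι → ℝ) (f g : ℕ) :
    ∑ E ∈ (univ : Finset ι).powersetCard (f + g), (∑ F ∈ E.powersetCard f, a F * b (E \ F)) ^ 2 ≤
      ((f + g).choose f : ℝ) * (∑ F ∈ (univ : Finset ι).powersetCard f, a F ^ 2) *
        ∑ G ∈ (univ : Finset ι).powersetCard g, b G ^ 2 := by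
  have h1 : ∀ E ∈ (univ : Finset ι).powersetCard (f + g),
      (∑ F ∈ E.powersetCard f, a F * b (E \ F)) ^ 2 ≤
        ((f + g).choose f : ℝ) * ∑ F ∈ E.powersetCard f, a F ^ 2 * b (E \ F) ^ 2 := by
    intro E hE
    have h2 := sq_sum_le_card_mul_sum_sq (s := E.powersetCard f) (f := fun F => a F * b (E \ F))
    rw [card_powersetCard, (mem_powersetCard.mp hE).2] at h2
    refine h2.trans (le_of_eq ?_)
    congr 1
    exact sum_congr rfl fun F _ => by ring
  refine (sum_le_sum h1).trans ?_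
  rw [← mul_sum, mul_assoc]
  refine mul_le_mul_of_nonneg_left ?_ (Nat.cast_nonneg _)
  refine (sum_split_le (fun F G => a F ^ 2 * b G ^ 2) (fun _ _ => by positivity) f g).trans
    (le_of_eq ?_)
  rw [sum_mul_sum]

/-- The `ℓ²` norm over the sets of size `e`. -/
noncomputable def N2 (φ : Finset ι → ℝ) (e : ℕ) : ℝ :=
  Real.sqrt (∑ E ∈ (univ : Finset ι).powersetCard e, φ E ^ 2)

lemma N2_nonneg (φ : Finset ι → ℝ) (e : ℕ) : 0 ≤ N2 φ e := Real.sqrt_nonneg _

lemma N2_sq (φ : Finset ι → ℝ) (e : ℕ) :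
    N2 φ e ^ 2 = ∑ E ∈ (univ : Finset ι).powersetCard e, φ E ^ 2 :=
  Real.sq_sqrt (sum_nonneg fun _ _ => sq_nonneg _)

lemma N2_le {φ : Finset ι → ℝ} {e : ℕ} {c : ℝ} (hc : 0 ≤ c)
    (h : ∑ E ∈ (univ : Finset ι).powersetCard e, φ E ^ 2 ≤ c ^ 2) : N2 φ e ≤ c :=
  Real.sqrt_le_iff.mpr ⟨hc, h⟩

lemma N2_mono {φ ψ : Finset ι → ℝ} {e : ℕ} (h : ∀ E, E.card = e → |φ E| ≤ ψ E) :
    N2 φ e ≤ N2 ψ e := by
  refine Real.sqrt_le_sqrt (sum_le_sum fun E hE => ?_)
  have h1 := h E (mem_powersetCard.mp hE).2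
  have h2 := abs_nonneg (φ E)
  calc φ E ^ 2 = |φ E| ^ 2 := (sq_abs _).symm
    _ ≤ ψ E ^ 2 := pow_le_pow_left₀ h2 h1 2

/-- Minkowski. -/
lemma N2_add (φ ψ : Finset ι → ℝ) (e : ℕ) :
    N2 (fun E => φ E + ψ E) e ≤ N2 φ e + N2 ψ e := by
  refine N2_le (add_nonneg (N2_nonneg _ _) (N2_nonneg _ _)) ?_
  have h1 := inner_mul_le_norm_mul_norm_aux φ ψ e
  have h2 := N2_sq φ e
  have h3 := N2_sq ψ e
  have h4 : ∑ E ∈ (univ : Finset ι).powersetCard e, (φ E + ψ E) ^ 2 =
      ∑ E ∈ (univ : Finset ι).powersetCard e, φ E ^ 2 +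
      2 * ∑ E ∈ (univ : Finset ι).powersetCard e, φ E * ψ E +
      ∑ E ∈ (univ : Finset ι).powersetCard e, ψ E ^ 2 := by
    rw [mul_sum, ← sum_add_distrib, ← sum_add_distrib]
    exact sum_congr rfl fun E _ => by ring
  rw [h4, ← h2, ← h3]
  nlinarith
where
  inner_mul_le_norm_mul_norm_aux (φ ψ : Finset ι → ℝ) (e : ℕ) :
      ∑ E ∈ (univ : Finset ι).powersetCard e, φ E * ψ E ≤ N2 φ e * N2 ψ e := by
    have := Real.sum_mul_le_sqrt_mul_sqrt ((univ : Finset ι).powersetCard e) φ ψ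
    exact this

lemma N2_sum {κ : Type*} (s : Finset κ) (φ : κ → Finset ι → ℝ) (e : ℕ) :
    N2 (fun E => ∑ k ∈ s, φ k E) e ≤ ∑ k ∈ s, N2 (φ k) e := by
  classical
  induction s using Finset.induction_on with
  | empty => simp [N2]
  | insert k s hk ih =>
    have h1 : (fun E => ∑ k ∈ insert k s, φ k E) = fun E => φ k E + ∑ k ∈ s, φ k E := by
      funext E; rw [sum_insert hk]
    rw [h1, sum_insert hk]
    exact (N2_add _ _ _).trans (by gcongr)

/-- The splitting lemma for the norm. -/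
lemma N2_split (a b : Finset ι → ℝ) (f g : ℕ) :
    N2 (fun E => ∑ F ∈ E.powersetCard f, a F * b (E \ F)) (f + g) ≤
      Real.sqrt ((f + g).choose f) * N2 a f * N2 b g := by
  refine N2_le (by have := N2_nonneg a f; have := N2_nonneg b g; positivity) ?_
  refine (split_sq a b f g).trans (le_of_eq ?_)
  rw [mul_pow, mul_pow, N2_sq, N2_sq, Real.sq_sqrt (Nat.cast_nonneg _)]

/-- The full convolution. -/
lemma N2_conv (a b : Finset ι → ℝ) (e : ℕ) :
    N2 (fun E => ∑ F ∈ E.powerset, a F * b (E \ F)) e ≤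
      ∑ f ∈ range (e + 1), Real.sqrt (e.choose f) * N2 a f * N2 b (e - f) := by
  have h1 : N2 (fun E => ∑ F ∈ E.powerset, a F * b (E \ F)) e =
      N2 (fun E => ∑ f ∈ range (e + 1), ∑ F ∈ E.powersetCard f, a F * b (E \ F)) e := by
    unfold N2
    congr 1
    refine sum_congr rfl fun E hE => ?_
    congr 1
    show ∑ F ∈ E.powerset, a F * b (E \ F) = ∑ f ∈ range (e + 1), ∑ F ∈ E.powersetCard f, a F * b (E \ F)
    rw [sum_powerset, (mem_powersetCard.mp hE).2]
  rw [h1]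
  refine (N2_sum _ _ _).trans (sum_le_sum fun f hf => ?_)
  have hf' : f ≤ e := by rw [mem_range] at hf; omega
  obtain ⟨g, rfl⟩ := Nat.exists_eq_add_of_le hf'
  have := N2_split a b f g
  simpa using this

/-- The convolution of `(n+1)⁻²` with itself. -/
lemma conv_inv_sq (e : ℕ) :
    ∑ f ∈ range (e + 1), 1 / (((f : ℝ) + 1) ^ 2 * (((e - f : ℕ) : ℝ) + 1) ^ 2) ≤
      8 / ((e : ℝ) + 1) ^ 2 := by
  have hS : ∀ n : ℕ, ∑ f ∈ range (n + 1), 1 / ((f : ℝ) + 1) ^ 2 ≤ 2 - 1 / ((n : ℝ) + 1) := by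
    intro n
    induction n with
    | zero => norm_num
    | succ n ih =>
      rw [sum_range_succ]
      have h1 : 1 / (((n + 1 : ℕ) : ℝ) + 1) ^ 2 ≤ 1 / ((n : ℝ) + 1) - 1 / (((n + 1 : ℕ) : ℝ) + 1) := by
        push_cast
        rw [div_sub_div _ _ (by positivity) (by positivity), div_le_div_iff₀ (by positivity) (by positivity)]
        nlinarith [sq_nonneg ((n : ℝ)), (Nat.cast_nonneg n : (0 : ℝ) ≤ n)]
      linarith
  have h1 : ∀ f ∈ range (e + 1), 1 / (((f : ℝ) + 1) ^ 2 * (((e - f : ℕ) : ℝ) + 1) ^ 2) ≤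
      2 / ((e : ℝ) + 2) ^ 2 * (1 / ((f : ℝ) + 1) ^ 2 + 1 / (((e - f : ℕ) : ℝ) + 1) ^ 2) := by
    intro f hf
    have hf' : f ≤ e := by rw [mem_range] at hf; omega
    obtain ⟨g, rfl⟩ := Nat.exists_eq_add_of_le hf'
    have e1 : f + g - f = g := by omega
    rw [e1]
    push_cast
    have ha : (0 : ℝ) < (f : ℝ) + 1 := by positivity
    have hb : (0 : ℝ) < (g : ℝ) + 1 := by positivity
    rw [div_add_div _ _ (by positivity) (by positivity), div_mul_div_comm,
      div_le_div_iff₀ (by positivity) (by positivity)]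
    have hk : ((f : ℝ) + g + 2) ^ 2 ≤ 2 * (((f : ℝ) + 1) ^ 2 + ((g : ℝ) + 1) ^ 2) := by
      nlinarith [sq_nonneg ((f : ℝ) - g)]
    have hp : 0 ≤ ((f : ℝ) + 1) ^ 2 * ((g : ℝ) + 1) ^ 2 := by positivity
    nlinarith [mul_le_mul_of_nonneg_left hk hp]
  refine (sum_le_sum h1).trans ?_
  rw [← mul_sum, sum_add_distrib]
  have h2 : ∑ f ∈ range (e + 1), 1 / (((e - f : ℕ) : ℝ) + 1) ^ 2 =
      ∑ f ∈ range (e + 1), 1 / ((f : ℝ) + 1) ^ 2 := by
    rw [← sum_range_reflect]
    refine sum_congr rfl fun f hf => ?_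
    rw [mem_range] at hf
    congr 4
    omega
  rw [h2]
  have h3 : ∑ f ∈ range (e + 1), 1 / ((f : ℝ) + 1) ^ 2 ≤ 2 := by
    have := hS e
    have h4 : 0 ≤ 1 / ((e : ℝ) + 1) := by positivity
    linarith
  calc 2 / ((e : ℝ) + 2) ^ 2 * (∑ f ∈ range (e + 1), 1 / ((f : ℝ) + 1) ^ 2 +
        ∑ f ∈ range (e + 1), 1 / ((f : ℝ) + 1) ^ 2) ≤ 2 / ((e : ℝ) + 2) ^ 2 * 4 := by
        refine mul_le_mul_of_nonneg_left (by linarith) (by positivity)
    _ = 8 / ((e : ℝ) + 2) ^ 2 := by ring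
    _ ≤ 8 / ((e : ℝ) + 1) ^ 2 := by
        refine div_le_div_of_nonneg_left (by norm_num) (by positivity) ?_
        have : (0 : ℝ) ≤ e := Nat.cast_nonneg e
        nlinarith

/-- `a! b! ≤ (a+b-1)!` for `a, b ≥ 1`. -/
lemma fact_mul_le {a b : ℕ} (ha : 1 ≤ a) (hb : 1 ≤ b) :
    a.factorial * b.factorial ≤ (a + b - 1).factorial := by
  obtain ⟨a, rfl⟩ := Nat.exists_eq_add_of_le ha
  have e1 : 1 + a + b - 1 = a + b := by omega
  rw [e1]
  induction b, hb using Nat.le_induction with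
  | base => simp [Nat.add_comm]
  | succ b hb ih =>
    have h1 : (a + (b + 1)).factorial = (a + b + 1) * (a + b).factorial := Nat.factorial_succ _
    rw [h1, Nat.factorial_succ b]
    have h2 : (1 + a + b - 1) = a + b := by omega
    calc (1 + a).factorial * ((b + 1) * b.factorial) = (b + 1) * ((1 + a).factorial * b.factorial) := by ring
      _ ≤ (a + b + 1) * (a + b).factorial := Nat.mul_le_mul (by omega) (ih h2)

/-- The factorial bound for the partitions into at least two blocks. -/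
lemma choose_fact_sum (j : ℕ) :
    ∑ s ∈ range j, (j.choose s : ℝ) * ((s + 1).factorial : ℝ) ^ 2 * ((j - s).factorial : ℝ) ^ 2 ≤
      ((j + 1).factorial : ℝ) ^ 2 / 2 := by
  have h1 : ∀ s ∈ range j, (j.choose s : ℝ) * ((s + 1).factorial : ℝ) ^ 2 * ((j - s).factorial : ℝ) ^ 2
      ≤ (j.factorial : ℝ) ^ 2 * ((s : ℝ) + 1) := by
    intro s hs
    have hs' : s < j := mem_range.mp hs
    have e1 : j.choose s * s.factorial * (j - s).factorial = j.factorial :=
      Nat.choose_mul_factorial_mul_factorial hs'.le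
    have e2 : (s + 1).factorial * (j - s).factorial ≤ j.factorial := by
      have := fact_mul_le (a := s + 1) (b := j - s) (by omega) (by omega)
      have e3 : s + 1 + (j - s) - 1 = j := by omega
      rwa [e3] at this
    have e1' : (j.choose s : ℝ) * s.factorial * (j - s).factorial = j.factorial := by exact_mod_cast e1
    have e2' : ((s + 1).factorial : ℝ) * (j - s).factorial ≤ j.factorial := by exact_mod_cast e2
    have e3 : ((s + 1).factorial : ℝ) = ((s : ℝ) + 1) * s.factorial := by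
      rw [Nat.factorial_succ]; push_cast; ring
    calc (j.choose s : ℝ) * ((s + 1).factorial : ℝ) ^ 2 * ((j - s).factorial : ℝ) ^ 2
        = ((s : ℝ) + 1) * ((j.choose s : ℝ) * s.factorial * (j - s).factorial) *
          (((s + 1).factorial : ℝ) * (j - s).factorial) := by rw [e3]; ring
      _ = ((s : ℝ) + 1) * j.factorial * (((s + 1).factorial : ℝ) * (j - s).factorial) := by rw [e1']
      _ ≤ ((s : ℝ) + 1) * j.factorial * j.factorial :=
          mul_le_mul_of_nonneg_left e2' (by positivity)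
      _ = (j.factorial : ℝ) ^ 2 * ((s : ℝ) + 1) := by ring
  refine (sum_le_sum h1).trans ?_
  rw [← mul_sum]
  have h2 : ∀ n : ℕ, ∑ s ∈ range n, ((s : ℝ) + 1) = (n : ℝ) * (n + 1) / 2 := by
    intro n
    induction n with
    | zero => simp
    | succ n ih => rw [sum_range_succ, ih]; push_cast; ring
  rw [h2, Nat.factorial_succ]
  push_cast
  have : (0 : ℝ) ≤ j := Nat.cast_nonneg j
  have hf : (0 : ℝ) ≤ (j.factorial : ℝ) ^ 2 := by positivity
  nlinarith

end Vale.Agent.P042.H678
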